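import Vale.Agent.P352.H746.Bk

/-!
# The conformal Ward identity for bilinear forms
-/

set_option linter.all false

noncomputable section

open MeasureTheory SchwartzMap Complex Filter Topology
open scoped SchwartzMap ComplexConjugate ENNReal LineDeriv

namespace Vale.Agent.P352.H121

open GF (Ix V Fn Sch ev pd bar sim bas o)
open H246 H746

lemma wd_ld_Xm (k n : Ix) (f : 𝓢(Mink, ℂ)) : (∂_{eb k} (Xm n f) : 𝓢(Mink, ℂ)) =
    (if k = n then (1 : ℂ) else 0) • f + Xm n (∂_{eb k} f : 𝓢(Mink, ℂ)) := by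
  ext x
  have h0 : HasFDerivAt (fun x : Mink => ((x n : ℝ) : ℂ))
      (Complex.ofRealCLM.comp (EuclideanSpace.proj n : Mink →L[ℝ] ℝ)) x :=
    (Complex.ofRealCLM.comp (EuclideanSpace.proj n : Mink →L[ℝ] ℝ)).hasFDerivAt
  have h1 := h0.mul (f.differentiableAt (x := x)).hasFDerivAt
  have h2 : (Xm n f : Mink → ℂ) = (fun x : Mink => ((x n : ℝ) : ℂ)) * f := by
    funext y
    rw [Xm_apply]
    rfl
  have e : ((if k = n then (1 : ℂ) else 0) • f + Xm n (∂_{eb k} f : 𝓢(Mink, ℂ))) x =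
      (if k = n then (1 : ℂ) else 0) * f x + (x n : ℂ) * fderiv ℝ f x (eb k) := by
    rw [SchwartzMap.add_apply, SchwartzMap.smul_apply, Xm_apply, lineDerivOp_apply_eq_fderiv]
    rfl
  rw [e, lineDerivOp_apply_eq_fderiv, h2, h1.fderiv]
  by_cases h : k = n
  · subst h
    simp [eb]
    ring
  · have h' : n ≠ k := fun e => h e.symm
    simp [eb, h, h']

lemma wd_vfS (w : Ix → V) (r : ℝ) (c : V) (f : 𝓢(Mink, ℂ)) (x : Mink) :
    vfS w r c f x = ∑ n, ((c n + r * x n + ∑ m, x m * w m n : ℝ) : ℂ) *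
      (∂_{eb n} f : 𝓢(Mink, ℂ)) x := by
  have h1 := fl_vfS (X := fun z n => c n + r * z n + ∑ m, z m * w m n) (w := w) (r := r) (c := c)
    (fun z n => rfl) f
  have h2 := congrFun h1 x.ofLp
  simp only [vf, pd_fl, fl_apply] at h2
  exact h2

variable {a : V}

/-- the operator of the conformal Killing fields -/
def Me (a : V) (n : Ix) (F : 𝓢(Mink, ℂ)) : 𝓢(Mink, ℂ) :=
  ((-2 * (GF.eta n * a n) : ℝ) : ℂ) • euL F + ((2 * GF.eta n : ℝ) : ℂ) • Xm n (dL a F) +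
    ((-2 : ℝ) : ℂ) • axL a (∂_{eb n} F : 𝓢(Mink, ℂ))

lemma axL_apply (a : V) (f : 𝓢(Mink, ℂ)) (x : Mink) :
    axL a f x = ((GF.mdot a x.ofLp : ℝ) : ℂ) * f x := by
  unfold axL
  rw [ContinuousLinearMap.sum_apply, SchwartzMap.sum_apply]
  unfold GF.mdot
  rw [ofReal_sum, Finset.sum_mul]
  refine Finset.sum_congr rfl fun m _ => ?_
  show ((GF.eta m * a m : ℝ) : ℂ) * (Xm m f x) = _
  rw [Xm_apply]
  push_cast
  ring

lemma dL_apply (a : V) (f : 𝓢(Mink, ℂ)) (x : Mink) :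
    dL a f x = ∑ m, (a m : ℂ) * (∂_{eb m} f : 𝓢(Mink, ℂ)) x := by
  unfold dL
  rw [ContinuousLinearMap.sum_apply, SchwartzMap.sum_apply]
  rfl

lemma euL_apply (f : 𝓢(Mink, ℂ)) (x : Mink) :
    euL f x = ∑ m, (x m : ℂ) * (∂_{eb m} f : 𝓢(Mink, ℂ)) x := by
  unfold euL
  rw [ContinuousLinearMap.sum_apply, SchwartzMap.sum_apply]
  refine Finset.sum_congr rfl fun m _ => ?_
  show Xm m (∂_{eb m} f : 𝓢(Mink, ℂ)) x = _
  rw [Xm_apply]

/-- the velocity field of `Me` -/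
def wn (a : V) (n : Ix) : Ix → V := fun m k =>
  2 * GF.eta m * ((if n = m then 1 else 0) * a k - a m * (if n = k then 1 else 0))

lemma vfS_Me (n : Ix) (F : 𝓢(Mink, ℂ)) :
    vfS (wn a n) (-2 * (GF.eta n * a n)) 0 F = Me a n F := by
  ext x
  rw [wd_vfS]
  unfold Me
  rw [SchwartzMap.add_apply, SchwartzMap.add_apply, SchwartzMap.smul_apply, SchwartzMap.smul_apply,
    SchwartzMap.smul_apply, Xm_apply, axL_apply, dL_apply, euL_apply]
  simp only [smul_eq_mul, Fin.sum_univ_four, wn, Pi.zero_apply, GF.mdot]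
  fin_cases n <;>
  · simp [GF.eta, GF.o]
    ring

lemma wn_anti (n m k : Ix) : GF.eta k * wn a n m k = -(GF.eta m * wn a n k m) := by
  unfold wn
  ring

lemma wn_a (ha : GF.mdot a a = 0) (n k : Ix) :
    ∑ m, a m * wn a n m k = (2 * (GF.eta n * a n)) * a k := by
  have h : GF.eta 0 * a 0 * a 0 + GF.eta 1 * a 1 * a 1 + GF.eta 2 * a 2 * a 2 +
      GF.eta 3 * a 3 * a 3 = 0 := by
    have := ha
    unfold GF.mdot at this
    rwa [Fin.sum_univ_four] at this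
  have e1 : ∑ m, a m * wn a n m k = 2 * (∑ m, (if n = m then GF.eta m * a m else 0)) * a k -
      2 * (GF.eta 0 * a 0 * a 0 + GF.eta 1 * a 1 * a 1 + GF.eta 2 * a 2 * a 2 +
      GF.eta 3 * a 3 * a 3) * (if n = k then 1 else 0) := by
    rw [Fin.sum_univ_four, Fin.sum_univ_four]
    unfold wn
    split_ifs <;> ring
  rw [e1, h, Finset.sum_ite_eq]
  simp

lemma wn_z (n : Ix) (z : V) (hz : GF.mdot a z = 0) :
    ∃ t : ℝ, ∀ k, ∑ m, z m * wn a n m k = t * a k := by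
  refine ⟨2 * (GF.eta n * z n), fun k => ?_⟩
  have h : GF.eta 0 * a 0 * z 0 + GF.eta 1 * a 1 * z 1 + GF.eta 2 * a 2 * z 2 +
      GF.eta 3 * a 3 * z 3 = 0 := by
    have := hz
    unfold GF.mdot at this
    rwa [Fin.sum_univ_four] at this
  have e1 : ∑ m, z m * wn a n m k = 2 * (∑ m, (if n = m then GF.eta m * z m else 0)) * a k -
      2 * (GF.eta 0 * a 0 * z 0 + GF.eta 1 * a 1 * z 1 + GF.eta 2 * a 2 * z 2 +
      GF.eta 3 * a 3 * z 3) * (if n = k then 1 else 0) := by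
    rw [Fin.sum_univ_four, Fin.sum_univ_four]
    unfold wn
    split_ifs <;> ring
  rw [e1, h, Finset.sum_ite_eq]
  simp

lemma vfS_c (c : V) (F : 𝓢(Mink, ℂ)) : vfS (fun _ _ => 0) 0 c F = dL c F := by
  ext x
  rw [wd_vfS, dL_apply]
  refine Finset.sum_congr rfl fun n _ => ?_
  simp

lemma dL_bas (n : Ix) (F : 𝓢(Mink, ℂ)) : dL (bas n 1) F = (∂_{eb n} F : 𝓢(Mink, ℂ)) := by
  ext x
  rw [dL_apply, Fin.sum_univ_four]
  fin_cases n <;> simp [bas]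

lemma axL_sum (a : V) (F : 𝓢(Mink, ℂ)) :
    axL a F = ∑ m, ((GF.eta m * a m : ℝ) : ℂ) • Xm m F := by
  unfold axL
  rw [ContinuousLinearMap.sum_apply]
  rfl

lemma xxL_sum (F : 𝓢(Mink, ℂ)) : xxL F = ∑ m, ((GF.eta m : ℝ) : ℂ) • Xm m (Xm m F) := by
  unfold xxL
  rw [ContinuousLinearMap.sum_apply]
  rfl

lemma euL_sum (F : 𝓢(Mink, ℂ)) : euL F = ∑ m, Xm m (∂_{eb m} F : 𝓢(Mink, ℂ)) := by
  unfold euL
  rw [ContinuousLinearMap.sum_apply]
  rfl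

lemma dL_sum (a : V) (F : 𝓢(Mink, ℂ)) :
    dL a F = ∑ m, ((a m : ℝ) : ℂ) • (∂_{eb m} F : 𝓢(Mink, ℂ)) := by
  unfold dL
  rw [ContinuousLinearMap.sum_apply]
  rfl

lemma D_X (n : Ix) (F : 𝓢(Mink, ℂ)) : (∂_{eb n} (Xm n F) : 𝓢(Mink, ℂ)) =
    F + Xm n (∂_{eb n} F : 𝓢(Mink, ℂ)) := by
  rw [wd_ld_Xm, if_pos rfl, one_smul]

lemma dL_X (a : V) (n : Ix) (F : 𝓢(Mink, ℂ)) : dL a (Xm n F) =
    ((a n : ℝ) : ℂ) • F + Xm n (dL a F) := by
  ext x
  rw [SchwartzMap.add_apply, SchwartzMap.smul_apply, Xm_apply, dL_apply, dL_apply]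
  simp only [wd_ld_Xm, SchwartzMap.add_apply, SchwartzMap.smul_apply, Xm_apply, smul_eq_mul,
    Fin.sum_univ_four]
  fin_cases n <;>
  · simp
    ring

lemma euL_X (n : Ix) (F : 𝓢(Mink, ℂ)) : euL (Xm n F) = Xm n F + Xm n (euL F) := by
  ext x
  rw [SchwartzMap.add_apply, Xm_apply, Xm_apply, euL_apply, euL_apply]
  simp only [wd_ld_Xm, SchwartzMap.add_apply, SchwartzMap.smul_apply, Xm_apply, smul_eq_mul,
    Fin.sum_univ_four]
  fin_cases n <;>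
  · simp
    ring

lemma D_A (a : V) (n : Ix) (F : 𝓢(Mink, ℂ)) : (∂_{eb n} (axL a F) : 𝓢(Mink, ℂ)) =
    ((GF.eta n * a n : ℝ) : ℂ) • F + axL a (∂_{eb n} F : 𝓢(Mink, ℂ)) := by
  have h1 : (∂_{eb n} (axL a F) : 𝓢(Mink, ℂ)) =
      ∑ m, ((GF.eta m * a m : ℝ) : ℂ) • (∂_{eb n} (Xm m F) : 𝓢(Mink, ℂ)) := by
    rw [axL_sum]
    have h2 := map_sum (LineDeriv.lineDerivOpCLM ℂ 𝓢(Mink, ℂ) (eb n))
      (fun m => ((GF.eta m * a m : ℝ) : ℂ) • Xm m F) Finset.univ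
    simp only [map_smul] at h2
    exact h2
  rw [h1]
  ext x
  rw [SchwartzMap.add_apply, SchwartzMap.smul_apply, axL_apply, SchwartzMap.sum_apply]
  simp only [wd_ld_Xm, SchwartzMap.add_apply, SchwartzMap.smul_apply, Xm_apply, smul_eq_mul,
    Fin.sum_univ_four, GF.mdot]
  fin_cases n <;>
  · simp
    ring

/-- the conformal Ward identity -/
theorem ward_beta {a : V} (p q : ℝ) (β : 𝓢(Mink, ℂ) → 𝓢(Mink, ℂ) → ℂ)
    (hal : ∀ F F' G, β (F + F') G = β F G + β F' G)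
    (har : ∀ F G G', β F (G + G') = β F G + β F G')
    (hsl : ∀ (c : ℝ) F G, β ((c : ℂ) • F) G = c * β F G)
    (hsr : ∀ (c : ℝ) F G, β F ((c : ℂ) • G) = c * β F G)
    (h : ∀ (w : Ix → V) (r l : ℝ) (c : V), (∀ m n, GF.eta n * w m n = -(GF.eta m * w n m)) →
      (∀ n, ∑ m, a m * w m n = l * a n) →
      (∀ z, GF.mdot a z = 0 → ∃ t : ℝ, ∀ n, ∑ m, z m * w m n = t * a n) → ∀ F G,
      β (vfS w r c F) G + β F (vfS w r c G) + ((2 * (p * r + q * l) : ℝ) : ℂ) * β F G = 0)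
    (ha : GF.mdot a a = 0) (F G : 𝓢(Mink, ℂ)) :
    β (kdL a (4 - (p - q)) F) G + β F (kdL a (4 - (p - q)) G) = 0 := by
  -- translations
  have htr : ∀ c F G, β (dL c F) G + β F (dL c G) = 0 := by
    intro c F G
    have h1 := h (fun _ _ => 0) 0 0 c (by simp) (by simp)
      (fun z _ => ⟨0, fun n => by simp⟩) F G
    rw [vfS_c, vfS_c] at h1
    simpa using h1
  have htn : ∀ (n : Ix) F G, β (∂_{eb n} F : 𝓢(Mink, ℂ)) G + β F (∂_{eb n} G : 𝓢(Mink, ℂ)) = 0 := by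
    intro n F G
    have h1 := htr (bas n 1) F G
    rwa [dL_bas, dL_bas] at h1
  -- the fields `Me`
  have hme : ∀ (n : Ix) F G, β (Me a n F) G + β F (Me a n G) =
      ((4 * (p - q) * (GF.eta n * a n) : ℝ) : ℂ) * β F G := by
    intro n F G
    have h1 := h (wn a n) (-2 * (GF.eta n * a n)) (2 * (GF.eta n * a n)) 0 (wn_anti n)
      (wn_a ha n) (wn_z n) F G
    rw [vfS_Me, vfS_Me] at h1
    push_cast at h1 ⊢
    linear_combination h1
  -- sums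
  have sl : ∀ (f : Ix → 𝓢(Mink, ℂ)) G, β (∑ n, f n) G = ∑ n, β (f n) G := by
    intro f G
    rw [Fin.sum_univ_four, hal, hal, hal, Fin.sum_univ_four]
  have sr : ∀ (f : Ix → 𝓢(Mink, ℂ)) F, β F (∑ n, f n) = ∑ n, β F (f n) := by
    intro f F
    rw [Fin.sum_univ_four, har, har, har, Fin.sum_univ_four]
  have Al : ∀ H G, β (axL a H) G = ∑ n, ((GF.eta n * a n : ℝ) : ℂ) * β (Xm n H) G := by
    intro H G
    rw [axL_sum, sl]
    exact Finset.sum_congr rfl fun n _ => hsl _ _ _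
  have Ar : ∀ F H, β F (axL a H) = ∑ n, ((GF.eta n * a n : ℝ) : ℂ) * β F (Xm n H) := by
    intro F H
    rw [axL_sum, sr]
    exact Finset.sum_congr rfl fun n _ => hsr _ _ _
  have xl : ∀ H G, β (xxL H) G = ∑ n, ((GF.eta n : ℝ) : ℂ) * β (Xm n (Xm n H)) G := by
    intro H G
    rw [xxL_sum, sl]
    exact Finset.sum_congr rfl fun n _ => hsl _ _ _
  have xr : ∀ F H, β F (xxL H) = ∑ n, ((GF.eta n : ℝ) : ℂ) * β F (Xm n (Xm n H)) := by
    intro F H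
    rw [xxL_sum, sr]
    exact Finset.sum_congr rfl fun n _ => hsr _ _ _
  have AEl : ∀ F G, β (axL a (euL F)) G = ∑ n, β (axL a (Xm n (∂_{eb n} F : 𝓢(Mink, ℂ)))) G := by
    intro F G
    rw [euL_sum, map_sum, sl]
  have AEr : ∀ F G, β F (axL a (euL G)) = ∑ n, β F (axL a (Xm n (∂_{eb n} G : 𝓢(Mink, ℂ)))) := by
    intro F G
    rw [euL_sum, map_sum, sr]
  have El : ∀ F G, β (euL F) G = ∑ n, β (Xm n (∂_{eb n} F : 𝓢(Mink, ℂ))) G := by
    intro F G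
    rw [euL_sum, sl]
  have Er : ∀ F G, β F (euL G) = ∑ n, β F (Xm n (∂_{eb n} G : 𝓢(Mink, ℂ))) := by
    intro F G
    rw [euL_sum, sr]
  -- first arguments
  have Ml : ∀ (n : Ix) F G, β (Me a n F) G = ((-2 * (GF.eta n * a n) : ℝ) : ℂ) * β (euL F) G +
      ((2 * GF.eta n : ℝ) : ℂ) * β (Xm n (dL a F)) G +
      ((-2 : ℝ) : ℂ) * β (axL a (∂_{eb n} F : 𝓢(Mink, ℂ))) G := by
    intro n F G
    unfold Me
    rw [hal, hal, hsl, hsl, hsl]
  have Mr : ∀ (n : Ix) F G, β F (Me a n G) = ((-2 * (GF.eta n * a n) : ℝ) : ℂ) * β F (euL G) +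
      ((2 * GF.eta n : ℝ) : ℂ) * β F (Xm n (dL a G)) +
      ((-2 : ℝ) : ℂ) * β F (axL a (∂_{eb n} G : 𝓢(Mink, ℂ))) := by
    intro n F G
    unfold Me
    rw [har, har, hsr, hsr, hsr]
  have kl : ∀ F G, β (kdL a (4 - (p - q)) F) G = β (xxL (dL a F)) G - 2 * β (axL a (euL F)) G -
      ((2 * (p - q) : ℝ) : ℂ) * β (axL a F) G := by
    intro F G
    have e : kdL a (4 - (p - q)) F = xxL (dL a F) + ((-2 : ℝ) : ℂ) • axL a (euL F) +
        ((-(2 * (p - q)) : ℝ) : ℂ) • axL a F := by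
      show xxL (dL a F) - (2 : ℂ) • axL a (euL F) - ((8 - 2 * (4 - (p - q)) : ℝ) : ℂ) • axL a F = _
      rw [show (8 - 2 * (4 - (p - q)) : ℝ) = 2 * (p - q) by ring]
      push_cast
      rw [neg_smul, neg_smul]
      abel
    rw [e, hal, hal, hsl, hsl]
    push_cast
    ring
  have kr : ∀ F G, β F (kdL a (4 - (p - q)) G) = β F (xxL (dL a G)) - 2 * β F (axL a (euL G)) -
      ((2 * (p - q) : ℝ) : ℂ) * β F (axL a G) := by
    intro F G
    have e : kdL a (4 - (p - q)) G = xxL (dL a G) + ((-2 : ℝ) : ℂ) • axL a (euL G) +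
        ((-(2 * (p - q)) : ℝ) : ℂ) • axL a G := by
      show xxL (dL a G) - (2 : ℂ) • axL a (euL G) - ((8 - 2 * (4 - (p - q)) : ℝ) : ℂ) • axL a G = _
      rw [show (8 - 2 * (4 - (p - q)) : ℝ) = 2 * (p - q) by ring]
      push_cast
      rw [neg_smul, neg_smul]
      abel
    rw [e, har, har, hsr, hsr]
    push_cast
    ring
  -- the identity for `Me` on `Xm n F`, `G`
  have hI : ∀ n, ((-2 * (GF.eta n * a n) : ℝ) : ℂ) * (β (Xm n F) G + β (Xm n (euL F)) G) +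
      ((2 * GF.eta n : ℝ) : ℂ) * (((a n : ℝ) : ℂ) * β (Xm n F) G + β (Xm n (Xm n (dL a F))) G) +
      ((-2 : ℝ) : ℂ) * (β (axL a F) G + β (axL a (Xm n (∂_{eb n} F : 𝓢(Mink, ℂ)))) G) +
      (((-2 * (GF.eta n * a n) : ℝ) : ℂ) * β (Xm n F) (euL G) +
      ((2 * GF.eta n : ℝ) : ℂ) * β (Xm n F) (Xm n (dL a G)) +
      ((-2 : ℝ) : ℂ) * β (Xm n F) (axL a (∂_{eb n} G : 𝓢(Mink, ℂ)))) =
      ((4 * (p - q) * (GF.eta n * a n) : ℝ) : ℂ) * β (Xm n F) G := by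
    intro n
    have h1 := hme n (Xm n F) G
    rw [Ml, Mr, euL_X, dL_X, D_X, hal, map_add (Xm n), map_smul (Xm n), hal, hsl,
      map_add (axL a), hal] at h1
    exact h1
  have hII : ∀ n, ((-2 * (GF.eta n * a n) : ℝ) : ℂ) * (β F (Xm n G) + β F (Xm n (euL G))) +
      ((2 * GF.eta n : ℝ) : ℂ) * (((a n : ℝ) : ℂ) * β F (Xm n G) + β F (Xm n (Xm n (dL a G)))) +
      ((-2 : ℝ) : ℂ) * (β F (axL a G) + β F (axL a (Xm n (∂_{eb n} G : 𝓢(Mink, ℂ))))) +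
      (((-2 * (GF.eta n * a n) : ℝ) : ℂ) * β (euL F) (Xm n G) +
      ((2 * GF.eta n : ℝ) : ℂ) * β (Xm n (dL a F)) (Xm n G) +
      ((-2 : ℝ) : ℂ) * β (axL a (∂_{eb n} F : 𝓢(Mink, ℂ))) (Xm n G)) =
      ((4 * (p - q) * (GF.eta n * a n) : ℝ) : ℂ) * β F (Xm n G) := by
    intro n
    have h1 := hme n F (Xm n G)
    rw [Ml, Mr, euL_X, dL_X, D_X, har, map_add (Xm n), map_smul (Xm n), har, hsr,
      map_add (axL a), har] at h1
    linear_combination h1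
  -- translations
  have T1 : ∀ n, ((GF.eta n * a n : ℝ) : ℂ) * β F (Xm n G) +
      β (axL a (∂_{eb n} F : 𝓢(Mink, ℂ))) (Xm n G) +
      (β (axL a F) G + β (axL a F) (Xm n (∂_{eb n} G : 𝓢(Mink, ℂ)))) = 0 := by
    intro n
    have h1 := htn n (axL a F) (Xm n G)
    rw [D_A, D_X, hal, hsl, har] at h1
    exact h1
  have T3 : ∀ n, (β F (axL a G) + β (Xm n (∂_{eb n} F : 𝓢(Mink, ℂ))) (axL a G)) +
      (((GF.eta n * a n : ℝ) : ℂ) * β (Xm n F) G +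
      β (Xm n F) (axL a (∂_{eb n} G : 𝓢(Mink, ℂ)))) = 0 := by
    intro n
    have h1 := htn n (Xm n F) (axL a G)
    rw [D_A, D_X, hal, har, hsr] at h1
    exact h1
  have T2 : ∀ n, ((a n : ℝ) : ℂ) * β F (Xm n G) + β (Xm n (dL a F)) (Xm n G) +
      (((a n : ℝ) : ℂ) * β (Xm n F) G + β (Xm n F) (Xm n (dL a G))) = 0 := by
    intro n
    have h1 := htr a (Xm n F) (Xm n G)
    rw [dL_X, dL_X, hal, hsl, har, hsr] at h1
    exact h1
  have e1 := Al F G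
  have e2 := Al (euL F) G
  have e3 := xl (dL a F) G
  have e4 := AEl F G
  have e5 := Al F (euL G)
  have f1 := Ar F G
  have f2 := Ar F (euL G)
  have f3 := xr F (dL a G)
  have f4 := AEr F G
  have f5 := Ar (euL F) G
  have g1 := Er (axL a F) G
  have g2 := El F (axL a G)
  rw [kl, kr]
  simp only [Fin.sum_univ_four] at e1 e2 e3 e4 e5 f1 f2 f3 f4 f5 g1 g2
  have I0 := hI 0
  have I1 := hI 1
  have I2 := hI 2
  have I3 := hI 3
  have J0 := hII 0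
  have J1 := hII 1
  have J2 := hII 2
  have J3 := hII 3
  have t10 := T1 0
  have t11 := T1 1
  have t12 := T1 2
  have t13 := T1 3
  have t30 := T3 0
  have t31 := T3 1
  have t32 := T3 2
  have t33 := T3 3
  have t20 := T2 0
  have t21 := T2 1
  have t22 := T2 2
  have t23 := T2 3
  push_cast at e1 e2 e5 f1 f2 f5
  push_cast at I0 I1 I2 I3 J0 J1 J2 J3
  push_cast at t10 t11 t12 t13 t30 t31 t32 t33
  push_cast
  linear_combination (1 / 2 : ℂ) * (I0 + I1 + I2 + I3) + (1 / 2 : ℂ) * (J0 + J1 + J2 + J3) +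
    (t10 + t11 + t12 + t13) + (t30 + t31 + t32 + t33) -
    ((GF.eta 0 : ℂ) * t20 + (GF.eta 1 : ℂ) * t21 + (GF.eta 2 : ℂ) * t22 + (GF.eta 3 : ℂ) * t23) +
    e3 - e2 - e4 - 2 * ((p : ℂ) - q) * e1 + g1 - e5 + f3 - f2 - f4 - 2 * ((p : ℂ) - q) * f1 +
    g2 - f5

end Vale.Agent.P352.H121

end
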