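import Vale.Agent.P352.H15.NPDefs

open MeasureTheory Filter Topology

namespace Vale.Agent.P352.H121

open GF H15

noncomputable section

variable {D : Type*} [NormedAddCommGroup D] [InnerProductSpace ℂ D]

/-- The on-shell dilaton constraint: the trace of `T` vanishes when it is integrated over null
hyperplanes. -/
def TrNull (T : Ix → Ix → Fld D) : Prop :=
  ∀ a b κ y ψ v w, Adm a b κ ψ → Tendsto (fun R => inner ℂ w
    (tr T (fun x => (ctf a b κ y ψ R x : ℂ)) v)) atTop (𝓝 0)

end

end Vale.Agent.P352.H121
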