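import Vale.Agent.P352.H846.T3
import Vale.Agent.P352.H755.R7
import Vale.Agent.P352.H121.NullDefs

/-!
# The null-plane charge of the virial current
-/

set_option linter.all false

noncomputable section

open MeasureTheory Filter Topology Set
open scoped ContDiff ComplexConjugate

namespace Vale.Agent.P352.H121

open GF (Ix V Fn Fld bas eta o bar)
open H755 H496 H15 H246

variable {D : Type*} [NormedAddCommGroup D] [InnerProductSpace ℂ D]
variable {Q : GF.Theory D} {T : Ix → Ix → GF.Fld D} {J : Ix → GF.Fld D}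
  {A : (V → V) → D → D} {K : V → D → D}

/-- the component `J_a` smeared along a null hyperplane -/
def Ja (J : Ix → GF.Fld D) (a b : V) (κ : V → ℝ) (y : V) (ψ : ℝ → ℝ) (R : ℝ) (v w : D) : ℂ :=
  inner ℂ w (∑ m, J m (fun x => ((eta m * a m * ctf a b κ y ψ R x : ℝ) : ℂ)) v)

lemma adm_of {a b : V} {κ : V → ℝ} {G F : ℝ → ℝ} (h : Adm a b κ G) (hF : Tst F) : Adm a b κ F :=
  ⟨h.1, h.2.1, h.2.2.1, h.2.2.2.1, h.2.2.2.2.1, hF⟩

lemma Ja_lin (hJ : IsVirial Q T J) {a b : V} {κ : V → ℝ} {ψ φ : ℝ → ℝ} (h1 : Adm a b κ ψ)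
    (h2 : Adm a b κ φ) (c : ℝ) (y : V) {R : ℝ} (hR : 1 ≤ R) (v w : D) :
    Ja J a b κ y (fun u => ψ u + c * φ u) R v w =
      Ja J a b κ y ψ R v w + (c : ℂ) * Ja J a b κ y φ R v w := by
  unfold Ja
  rw [← inner_smul_right, ← inner_add_right, Finset.smul_sum, ← Finset.sum_add_distrib]
  refine congrArg (fun z => inner ℂ w z) (Finset.sum_congr rfl fun m _ => ?_)
  have t1 : Tst fun x => eta m * a m * ctf a b κ y ψ R x :=
    H755.tst_smul contDiff_const (H755.ctf_tst h1 y hR)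
  have t2 : Tst fun x => eta m * a m * ctf a b κ y φ R x :=
    H755.tst_smul contDiff_const (H755.ctf_tst h2 y hR)
  have h3 := Q.lin (J m) (fun x => ((eta m * a m * ctf a b κ y ψ R x : ℝ) : ℂ))
    (fun x => ((eta m * a m * ctf a b κ y φ R x : ℝ) : ℂ)) (c : ℂ) v
    (Q.bose_fld _ (hJ.bose m)) t1.isTest t2.isTest
  rw [← h3]
  refine congrArg (fun f => J m f v) (funext fun x => ?_)
  unfold ctf
  push_cast
  ring

/-- the function `⟨w, (K_a(ub) + 2u A(X_w) - 2u² A(b)) v⟩` -/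
def kt (Q : GF.Theory D) (A : (V → V) → D → D) (K : V → D → D) (a b : V) (v w : D) (u : ℝ) : ℂ :=
  inner ℂ w (Q.U 1 GF.one (u • b) (K a (Q.U 1 GF.one (-(u • b)) v))) +
    2 * (u : ℂ) * inner ℂ w (A (H846.Xw a b) v) - 2 * (u : ℂ) ^ 2 * inner ℂ w (A (fun _ => b) v)

lemma kt_cont (h : NullCharges Q T J A K) {a b : V} (ha : IsNull a) (hb : IsNull b) (v w : D) :
    Continuous (kt Q A K a b v w) := by
  have h1 := h.cont a b v w ha hb
  unfold kt
  fun_prop

/-- the Ward identity between null hyperplanes without the condition on the virial current -/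
theorem limJ (hT : Q.IsStress T) (h : NullCharges Q T J A K) (ht : TrNull T) {a b : V}
    {κ : V → ℝ} {G : ℝ → ℝ} (hA : Adm a b κ G) (v w : D) :
    Tendsto (fun R => Ja J a b κ 0 (fun u => 2 * u * deriv G u) R v w) atTop
      (𝓝 (-∫ u, ((deriv G u : ℝ) : ℂ) * kt Q A K a b v w u)) := by
  obtain ⟨ha, hb, hab, hκ, hκ1, hG⟩ := hA
  set k : ℝ → ℂ := fun u => inner ℂ w (Q.U 1 GF.one (u • b) (K a (Q.U 1 GF.one (-(u • b)) v)))
    with hk
  have hkc : Continuous k := h.cont a b v w ha hb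
  set α : ℂ := inner ℂ w (A (H846.Xw a b) v) with hα
  set β : ℂ := inner ℂ w (A (fun _ => b) v) with hβ
  have hp1 : ContDiff ℝ ∞ fun u : ℝ => 2 * u := by fun_prop
  have hp2 : ContDiff ℝ ∞ fun u : ℝ => 2 * u ^ 2 := by fun_prop
  have hGt : Tst (deriv G) := H746.tder hG
  have t1 := h.flux a b κ G v w ⟨ha, hb, hab, hκ, hκ1, hG⟩
  have t2 := h.gen a b κ 0 (fun u => 2 * u * deriv G u) 1 (H846.Xw a b) v w
    ⟨ha, hb, hab, hκ, hκ1, H846.tst_pol hGt hp1⟩ (H846.isSim_Xw a b)
  have t3 := h.gen a b κ 0 (fun u => 2 * u ^ 2 * deriv G u) 0 (fun _ => b) v w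
    ⟨ha, hb, hab, hκ, hκ1, H846.tst_pol hGt hp2⟩ (H846.isSim_const b)
  have t4 := h.mom a b κ 0 (deriv G) v w ⟨ha, hb, hab, hκ, hκ1, hGt⟩
  have t5 := ht a b κ 0 (fun u => 2 * u * G u) v w ⟨ha, hb, hab, hκ, hκ1, H846.tst_pol hG hp1⟩
  have t7 := ((((t3.sub t1).sub t4).sub t5).sub t2)
  have i1 : Integrable fun u : ℝ => ((deriv G u : ℝ) : ℂ) * k u := H755.tst_intR hGt hkc
  have i2 : Integrable fun u : ℝ => ((2 * u * deriv G u : ℝ) : ℂ) * α :=
    H755.tst_intR (H846.tst_pol hGt hp1) continuous_const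
  have i3 : Integrable fun u : ℝ => ((2 * u ^ 2 * deriv G u : ℝ) : ℂ) * β :=
    H755.tst_intR (H846.tst_pol hGt hp2) continuous_const
  have e1 : (∫ u : ℝ, ((2 * u * deriv G u : ℝ) : ℂ)) * α =
      ∫ u : ℝ, ((2 * u * deriv G u : ℝ) : ℂ) * α := (integral_mul_const _ _).symm
  have e2 : (∫ u : ℝ, ((2 * u ^ 2 * deriv G u : ℝ) : ℂ)) * β =
      ∫ u : ℝ, ((2 * u ^ 2 * deriv G u : ℝ) : ℂ) * β := (integral_mul_const _ _).symm
  have e3 : (∫ u, ((deriv G u : ℝ) : ℂ) * kt Q A K a b v w u) =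
      (∫ u : ℝ, ((deriv G u : ℝ) : ℂ) * k u) + (∫ u : ℝ, ((2 * u * deriv G u : ℝ) : ℂ) * α) -
        ∫ u : ℝ, ((2 * u ^ 2 * deriv G u : ℝ) : ℂ) * β := by
    have e4 : (∫ u, ((deriv G u : ℝ) : ℂ) * kt Q A K a b v w u) = ∫ u : ℝ,
        ((((deriv G u : ℝ) : ℂ) * k u + ((2 * u * deriv G u : ℝ) : ℂ) * α) -
          ((2 * u ^ 2 * deriv G u : ℝ) : ℂ) * β) := by
      refine integral_congr_ae (Eventually.of_forall fun u => ?_)
      simp only [kt, hk]
      push_cast
      ring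
    rw [e4]
    have e5 : ∫ u : ℝ, ((((deriv G u : ℝ) : ℂ) * k u + ((2 * u * deriv G u : ℝ) : ℂ) * α) -
          ((2 * u ^ 2 * deriv G u : ℝ) : ℂ) * β) =
        (∫ u : ℝ, (((deriv G u : ℝ) : ℂ) * k u + ((2 * u * deriv G u : ℝ) : ℂ) * α)) -
          ∫ u : ℝ, ((2 * u ^ 2 * deriv G u : ℝ) : ℂ) * β := integral_sub (i1.add i2) i3
    have e6 : ∫ u : ℝ, (((deriv G u : ℝ) : ℂ) * k u + ((2 * u * deriv G u : ℝ) : ℂ) * α) =
        (∫ u : ℝ, ((deriv G u : ℝ) : ℂ) * k u) + ∫ u : ℝ, ((2 * u * deriv G u : ℝ) : ℂ) * α :=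
      integral_add i1 i2
    rw [e5, e6]
  have e7 : (((∫ u : ℝ, ((2 * u ^ 2 * deriv G u : ℝ) : ℂ)) * β - 0 -
      (∫ u : ℝ, ((deriv G u : ℝ) : ℂ) * k u)) - 0) -
      (∫ u : ℝ, ((2 * u * deriv G u : ℝ) : ℂ)) * α =
      -∫ u, ((deriv G u : ℝ) : ℂ) * kt Q A K a b v w u := by
    rw [e3, e1, e2]
    ring
  rw [← e7]
  refine t7.congr' ?_
  filter_upwards [eventually_ge_atTop (1:ℝ)] with R hR
  have h1 := congrArg (fun z => inner ℂ w z) (H846.ward_R hT ha.1 hb.1 hab hκ hG hR v)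
  simp only [inner_add_right, inner_sub_right, inner_zero_right] at h1
  simp only [inner_sub_right, Complex.ofReal_one, one_smul, Complex.ofReal_zero, zero_smul,
    Finset.sum_const_zero, inner_zero_right, sub_zero]
  unfold Ja
  linear_combination (-1 : ℂ) * h1

lemma tst_sh {G : ℝ → ℝ} (hG : Tst G) (s : ℝ) : Tst fun u => G (u + s) :=
  ⟨hG.1.comp (contDiff_id.add contDiff_const), hG.2.comp_homeomorph (Homeomorph.addRight s)⟩

lemma Ja_shift (hJ : IsVirial Q T J) {a b : V} {κ : V → ℝ} {ψ : ℝ → ℝ} (h1 : Adm a b κ ψ)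
    (y : V) {R : ℝ} (hR : 1 ≤ R) (v w : D) :
    Ja J a b κ 0 ψ R (Q.U 1 GF.one (-y) v) (Q.U 1 GF.one (-y) w) =
      Ja J a b κ y (fun u => ψ (u - GF.mdot a y)) R v w := by
  unfold Ja
  have hF' : ∀ m, Tst fun x => eta m * a m * ctf a b κ 0 ψ R x := fun m =>
    H755.tst_smul contDiff_const (H755.ctf_tst h1 0 hR)
  have e2 : ∑ m, J m (fun x => ((eta m * a m * ctf a b κ 0 ψ R x : ℝ) : ℂ))
        (Q.U 1 GF.one (-y) v) = Q.U 1 GF.one (-y) (∑ m, J m (fun x =>
          ((eta m * a m * ctf a b κ y (fun u => ψ (u - GF.mdot a y)) R x : ℝ) : ℂ)) v) := by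
    rw [H846.U1_sum]
    refine Finset.sum_congr rfl fun m _ => ?_
    rw [H846.U1_fld (Q.bose_fld _ (hJ.bose m)) (hF' m)]
    simp only [H846.ctf_shift, zero_add]
  rw [e2, H846.inner_U1, H755.UU, add_neg_cancel, H755.U0]

lemma ctf_b {a b : V} (hb : IsNull b) (hab : GF.mdot a b = 1) (κ : V → ℝ) (s : ℝ) (ψ : ℝ → ℝ)
    (R : ℝ) (x : V) : ctf a b κ (s • b) ψ R x = ctf a b κ 0 ψ R x := by
  unfold ctf cut
  have e : x - s • b - GF.mdot a (x - s • b) • b - GF.mdot b (x - s • b) • a =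
      x - 0 - GF.mdot a (x - 0) • b - GF.mdot b (x - 0) • a := by
    rw [H755.md_sub, H755.md_sub, H755.md_smul, H755.md_smul, hab, hb.1, sub_zero]
    module
  have e' : GF.mdot b (x - s • b) = GF.mdot b (x - 0) := by
    rw [H755.md_sub, H755.md_smul, hb.1, mul_zero, sub_zero, sub_zero]
  rw [e, e']

lemma int_deriv {G : ℝ → ℝ} (hG : Tst G) : ∫ u, ((deriv G u : ℝ) : ℂ) = 0 := by
  have hGt : Tst (deriv G) := H746.tder hG
  have hd := H746.tdif hG
  have h1 : ∫ u, deriv G u = 0 := by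
    refine integral_eq_zero_of_hasDerivAt_of_integrable (f := G) (fun x => (hd x).hasDerivAt) ?_ ?_
    · exact hGt.1.continuous.integrable_of_hasCompactSupport hGt.2
    · exact hG.1.continuous.integrable_of_hasCompactSupport hG.2
  rw [integral_complex_ofReal, h1, Complex.ofReal_zero]

lemma Xw_shift {a b : V} (hb : IsNull b) (hab : GF.mdot a b = 1) (s : ℝ) :
    (fun z => H846.Xw a b (z - s • b)) = fun z => H846.Xw a b z + (-2 * s) • (fun _ : V => b) z := by
  funext z
  unfold H846.Xw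
  rw [H755.md_sub, H755.md_sub, H755.md_smul, H755.md_smul, hab, hb.1]
  module

lemma kt_shift (hT : Q.IsStress T) (hJ : IsVirial Q T J) (h : NullCharges Q T J A K) {a b : V}
    (ha : IsNull a) (hb : IsNull b) (hab : GF.mdot a b = 1) (s : ℝ) (v w : D) (u : ℝ) :
    kt Q A K a b (Q.U 1 GF.one (-(s • b)) v) (Q.U 1 GF.one (-(s • b)) w) u =
      kt Q A K a b v w (u + s) + (-2 * (s : ℂ) * inner ℂ w (A (H846.Xw a b) v) +
        2 * (s : ℂ) ^ 2 * inner ℂ w (A (fun _ => b) v)) := by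
  unfold kt
  have e1 : inner ℂ (Q.U 1 GF.one (-(s • b)) w) (Q.U 1 GF.one (u • b) (K a (Q.U 1 GF.one
      (-(u • b)) (Q.U 1 GF.one (-(s • b)) v)))) =
      inner ℂ w (Q.U 1 GF.one ((u + s) • b) (K a (Q.U 1 GF.one (-((u + s) • b)) v))) := by
    rw [H846.inner_U1, H755.UU, H755.UU]
    have e2 : s • b + u • b = (u + s) • b := by module
    have e3 : -(u • b) + -(s • b) = -((u + s) • b) := by module
    rw [e2, e3]
  have e2 : inner ℂ (Q.U 1 GF.one (-(s • b)) w) (A (H846.Xw a b) (Q.U 1 GF.one (-(s • b)) v)) =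
      inner ℂ w (A (H846.Xw a b) v) + ((-2 * s : ℝ) : ℂ) * inner ℂ w (A (fun _ => b) v) := by
    rw [H846.inner_U1, H846.conj_A hT hJ h (H846.isSim_Xw a b) ha, Xw_shift hb hab,
      h.add 1 0 (-2 * s) _ _ v (H846.isSim_Xw a b) (H846.isSim_const b), inner_add_right,
      inner_smul_right]
  have e3 : inner ℂ (Q.U 1 GF.one (-(s • b)) w) (A (fun _ => b) (Q.U 1 GF.one (-(s • b)) v)) =
      inner ℂ w (A (fun _ => b) v) := by
    rw [H846.inner_U1, H846.conj_A hT hJ h (H846.isSim_const b) ha]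
  rw [e1, e2, e3]
  push_cast
  ring

/-- the same with the origin of the transversal coordinate moved -/
theorem limJ1 (hT : Q.IsStress T) (hJ : IsVirial Q T J) (h : NullCharges Q T J A K)
    (ht : TrNull T) {a b : V} {κ : V → ℝ} {G : ℝ → ℝ} (hA : Adm a b κ G) (s : ℝ) (v w : D) :
    Tendsto (fun R => Ja J a b κ 0 (fun u => 2 * (u - s) * deriv G u) R v w) atTop
      (𝓝 (-∫ u, ((deriv G u : ℝ) : ℂ) * kt Q A K a b v w u)) := by
  have ha := hA.1
  have hb := hA.2.1
  have hab := hA.2.2.1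
  have hG := hA.2.2.2.2.2
  have hGt : Tst (deriv G) := H746.tder hG
  have hG0 : Tst fun u => G (u + s) := tst_sh hG s
  have hd0 : ∀ u, deriv (fun u => G (u + s)) u = deriv G (u + s) := fun u =>
    deriv_comp_add_const G s u
  have l := limJ (J := J) hT h ht (adm_of hA hG0) (Q.U 1 GF.one (-(s • b)) v)
    (Q.U 1 GF.one (-(s • b)) w)
  have hp : ContDiff ℝ ∞ fun u : ℝ => 2 * u := by fun_prop
  have hAp : Adm a b κ (fun u => 2 * u * deriv (fun u => G (u + s)) u) :=
    adm_of hA (H846.tst_pol (H746.tder hG0) hp)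
  have e1 : (fun R => Ja J a b κ 0 (fun u => 2 * u * deriv (fun u => G (u + s)) u) R
      (Q.U 1 GF.one (-(s • b)) v) (Q.U 1 GF.one (-(s • b)) w)) =ᶠ[atTop]
      fun R => Ja J a b κ 0 (fun u => 2 * (u - s) * deriv G u) R v w := by
    filter_upwards [eventually_ge_atTop (1:ℝ)] with R hR
    rw [Ja_shift hJ hAp (s • b) hR]
    unfold Ja
    have e2 : ∀ x, ctf a b κ (s • b) (fun u => (fun u => 2 * u * deriv (fun u => G (u + s)) u)
        (u - GF.mdot a (s • b))) R x = ctf a b κ 0 (fun u => 2 * (u - s) * deriv G u) R x := by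
      intro x
      rw [ctf_b hb hab, H755.md_smul, hab, mul_one]
      unfold ctf
      simp only [hd0, sub_add_cancel]
    simp only [e2]
  have e3 : -∫ u, ((deriv (fun u => G (u + s)) u : ℝ) : ℂ) * kt Q A K a b
      (Q.U 1 GF.one (-(s • b)) v) (Q.U 1 GF.one (-(s • b)) w) u =
      -∫ u, ((deriv G u : ℝ) : ℂ) * kt Q A K a b v w u := by
    set c : ℂ := -2 * (s : ℂ) * inner ℂ w (A (H846.Xw a b) v) +
        2 * (s : ℂ) ^ 2 * inner ℂ w (A (fun _ => b) v) with hc
    have e4 : (fun u => ((deriv (fun u => G (u + s)) u : ℝ) : ℂ) * kt Q A K a b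
      (Q.U 1 GF.one (-(s • b)) v) (Q.U 1 GF.one (-(s • b)) w) u) = fun u =>
        (fun u => ((deriv G u : ℝ) : ℂ) * kt Q A K a b v w u + ((deriv G u : ℝ) : ℂ) * c)
          (u + s) := by
      funext u
      rw [kt_shift hT hJ h ha hb hab, hd0]
      ring
    rw [e4, integral_add_right_eq_self (μ := (volume : Measure ℝ)) (fun u =>
      ((deriv G u : ℝ) : ℂ) * kt Q A K a b v w u + ((deriv G u : ℝ) : ℂ) * c) s,
      integral_add (H755.tst_intR hGt (kt_cont h ha hb v w))
        (H755.tst_intR hGt continuous_const), integral_mul_const, int_deriv hG, zero_mul,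
      add_zero]
  rw [← e3]
  exact l.congr' e1

/-- derivatives do not contribute -/
theorem limJ0 (hT : Q.IsStress T) (hJ : IsVirial Q T J) (h : NullCharges Q T J A K)
    (ht : TrNull T) {a b : V} {κ : V → ℝ} {G : ℝ → ℝ} (hA : Adm a b κ G) (v w : D) :
    Tendsto (fun R => Ja J a b κ 0 (deriv G) R v w) atTop (𝓝 0) := by
  have hG := hA.2.2.2.2.2
  have hp : ContDiff ℝ ∞ fun _ : ℝ => (1 / 2 : ℝ) := contDiff_const
  have hG2 : Tst fun u => (1 / 2 : ℝ) * G u := H846.tst_pol hG hp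
  have hd2 : ∀ u, deriv (fun u => (1 / 2 : ℝ) * G u) u = (1 / 2 : ℝ) * deriv G u := fun u =>
    deriv_const_mul _ (H746.tdif hG u)
  have l1 := limJ (J := J) hT h ht (adm_of hA hG2) v w
  have l2 := limJ1 (J := J) hT hJ h ht (adm_of hA hG2) 1 v w
  have l3 := l1.add (l2.const_mul (((-1 : ℝ)) : ℂ))
  have e0 : (-∫ u, ((deriv (fun u => (1 / 2 : ℝ) * G u) u : ℝ) : ℂ) * kt Q A K a b v w u) +
      ((-1 : ℝ) : ℂ) * (-∫ u, ((deriv (fun u => (1 / 2 : ℝ) * G u) u : ℝ) : ℂ) *
        kt Q A K a b v w u) = 0 := by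
    push_cast
    ring
  rw [e0] at l3
  refine l3.congr' ?_
  have hp1 : ContDiff ℝ ∞ fun u : ℝ => 2 * u := by fun_prop
  have hp2 : ContDiff ℝ ∞ fun u : ℝ => 2 * (u - 1) := by fun_prop
  filter_upwards [eventually_ge_atTop (1:ℝ)] with R hR
  rw [← Ja_lin hJ (adm_of hA (H846.tst_pol (H746.tder hG2) hp1))
    (adm_of hA (H846.tst_pol (H746.tder hG2) hp2)) (-1) 0 hR]
  refine congrArg (fun ψ => Ja J a b κ 0 ψ R v w) (funext fun u => ?_)
  rw [hd2]
  ring

/-- the limit for all test functions -/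
theorem limJG (hT : Q.IsStress T) (hJ : IsVirial Q T J) (h : NullCharges Q T J A K)
    (ht : TrNull T) {a b : V} {κ : V → ℝ} {G : ℝ → ℝ} (hA : Adm a b κ G) (v w : D) :
    Tendsto (fun R => Ja J a b κ 0 G R v w) atTop
      (𝓝 ((1 / 2 : ℂ) * ∫ u, ((deriv G u : ℝ) : ℂ) * kt Q A K a b v w u)) := by
  have hG := hA.2.2.2.2.2
  have hd := H746.tdif hG
  have hp1 : ContDiff ℝ ∞ fun u : ℝ => 2 * u := by fun_prop
  have hp3 : ContDiff ℝ ∞ fun u : ℝ => u := contDiff_id
  have hG3 : Tst fun u => u * G u := H846.tst_pol hG hp3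
  have hd3 : ∀ u, deriv (fun u => u * G u) u = G u + u * deriv G u := by
    intro u
    have h1 := ((hasDerivAt_id u).mul (hd u).hasDerivAt).deriv
    refine (Eq.trans ?_ h1).trans ?_
    · rfl
    · simp
  have l1 := limJ0 (J := J) hT hJ h ht (adm_of hA hG3) v w
  have l2 := limJ (J := J) hT h ht hA v w
  have l3 := l1.add (l2.const_mul (((-(1 / 2) : ℝ)) : ℂ))
  have e0 : (0 : ℂ) + ((-(1 / 2) : ℝ) : ℂ) * (-∫ u, ((deriv G u : ℝ) : ℂ) *
      kt Q A K a b v w u) = (1 / 2 : ℂ) * ∫ u, ((deriv G u : ℝ) : ℂ) * kt Q A K a b v w u := by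
    push_cast
    ring
  rw [e0] at l3
  refine l3.congr' ?_
  filter_upwards [eventually_ge_atTop (1:ℝ)] with R hR
  rw [← Ja_lin hJ (adm_of hA (H746.tder hG3))
    (adm_of hA (H846.tst_pol (H746.tder hG) hp1)) (-(1 / 2)) 0 hR]
  refine congrArg (fun ψ => Ja J a b κ 0 ψ R v w) (funext fun u => ?_)
  rw [hd3]
  ring

/-- the function `kt` is affine -/
lemma kt_aff (hT : Q.IsStress T) (hJ : IsVirial Q T J) (h : NullCharges Q T J A K)
    (ht : TrNull T) {a b : V} (ha : IsNull a) (hb : IsNull b) (hab : GF.mdot a b = 1)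
    (v w : D) (u : ℝ) : kt Q A K a b v w u = kt Q A K a b v w 0 +
      (u : ℂ) * (kt Q A K a b v w 1 - kt Q A K a b v w 0) := by
  obtain ⟨κ, hκ, hκ1⟩ := H846.exists_cutf
  set k : ℝ → ℂ := kt Q A K a b v w with hk
  have hkc : Continuous k := kt_cont h ha hb v w
  have h2 : ∀ F : ℝ → ℝ, Tst F → ∫ u, ((deriv (deriv F) u : ℝ) : ℂ) * k u = 0 := by
    intro F hF
    have hA : Adm a b κ F := ⟨ha, hb, hab, hκ, hκ1, hF⟩
    have l1 := limJ0 (J := J) hT hJ h ht hA v w
    have l2 := limJG (J := J) hT hJ h ht (adm_of hA (H746.tder hF)) v w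
    have l3 := tendsto_nhds_unique l2 l1
    have h4 : (1 / 2 : ℂ) ≠ 0 := by norm_num
    exact (mul_eq_zero.1 l3).resolve_left h4
  have key : ∀ s u, k (u + s) - k u = k s - k 0 := by
    intro s u
    have h3 := H846.dbr (h := fun u => k (u + s) - k u) (by fun_prop) (fun G hG => by
      obtain ⟨F, hF, hF'⟩ := H846.exists_prim hG s
      have hd := H746.tdif hG
      have hF2 : ∀ u, deriv (deriv F) u = deriv G u - deriv G (u - s) := by
        intro u
        have e : deriv F = fun u => G u - G (u - s) := funext hF'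
        rw [e]
        have h5 : HasDerivAt (fun u => G (u - s)) (deriv G (u - s)) u :=
          (hd (u - s)).hasDerivAt.comp_sub_const u s
        exact ((hd u).hasDerivAt.sub h5).deriv
      have h4 := h2 F hF
      simp only [hF2] at h4
      have hGt : Tst (deriv G) := H746.tder hG
      have i1 : Integrable fun u : ℝ => ((deriv G u : ℝ) : ℂ) * k u := H755.tst_intR hGt hkc
      have i2 : Integrable fun u : ℝ => ((deriv G u : ℝ) : ℂ) * k (u + s) :=
        H755.tst_intR hGt (by fun_prop)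
      have i3 : Integrable fun u : ℝ => ((deriv G (u - s) : ℝ) : ℂ) * k u := by
        have h6 := i2.comp_sub_right s
        simpa using h6
      have e1 : ∫ u : ℝ, ((deriv G (u - s) : ℝ) : ℂ) * k u =
          ∫ u : ℝ, ((deriv G u : ℝ) : ℂ) * k (u + s) := by
        have h6 := integral_sub_right_eq_self (μ := (volume : Measure ℝ))
          (fun u : ℝ => ((deriv G u : ℝ) : ℂ) * k (u + s)) s
        simpa using h6
      have e2 : ∫ u : ℝ, ((deriv G u - deriv G (u - s) : ℝ) : ℂ) * k u =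
          (∫ u : ℝ, ((deriv G u : ℝ) : ℂ) * k u) -
            ∫ u : ℝ, ((deriv G (u - s) : ℝ) : ℂ) * k u := by
        rw [← integral_sub i1 i3]
        refine integral_congr_ae (Eventually.of_forall fun u => ?_)
        simp only
        push_cast
        ring
      rw [e2, e1, sub_eq_zero] at h4
      have e3 : ∫ u : ℝ, ((deriv G u : ℝ) : ℂ) * (k (u + s) - k u) =
          (∫ u : ℝ, ((deriv G u : ℝ) : ℂ) * k (u + s)) - ∫ u : ℝ, ((deriv G u : ℝ) : ℂ) * k u := by
        rw [← integral_sub i2 i1]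
        refine integral_congr_ae (Eventually.of_forall fun u => ?_)
        simp only
        ring
      show ∫ u : ℝ, ((deriv G u : ℝ) : ℂ) * (k (u + s) - k u) = 0
      rw [e3, h4, sub_self]) u
    simpa using h3
  let g : ℝ →+ ℂ :=
    { toFun := fun s => k s - k 0
      map_zero' := sub_self _
      map_add' := fun x y => by
        have h3 := key y x
        linear_combination h3 }
  have hg : Continuous g := hkc.sub continuous_const
  have h4 : g u = (u : ℂ) * g 1 := by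
    have h5 := (g.toRealLinearMap hg).map_smul u 1
    have h6 : g.toRealLinearMap hg (u • (1:ℝ)) = g (u • (1:ℝ)) := rfl
    have h7 : g.toRealLinearMap hg 1 = g 1 := rfl
    rw [h6, h7, smul_eq_mul, mul_one, Complex.real_smul] at h5
    exact h5
  have h5 : k u - k 0 = (u : ℂ) * (k 1 - k 0) := h4
  linear_combination h5

/-- the charge of `J_a` -/
def Cop (Q : GF.Theory D) (A : (V → V) → D → D) (K : V → D → D) (a b : V) (v : D) : D :=
  (-(1 / 2) : ℂ) • (Q.U 1 GF.one b (K a (Q.U 1 GF.one (-b) v)) - K a v +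
    ((2 : ℂ) • A (H846.Xw a b) v - (2 : ℂ) • A (fun _ => b) v))

lemma inner_Cop (a b : V) (v w : D) : inner ℂ w (Cop Q A K a b v) =
    -(1 / 2) * (kt Q A K a b v w 1 - kt Q A K a b v w 0) := by
  unfold Cop kt
  simp only [inner_smul_right, inner_add_right, inner_sub_right, one_smul, zero_smul, neg_zero,
    H755.U0, Complex.ofReal_one, Complex.ofReal_zero]
  ring

theorem lim0 (hT : Q.IsStress T) (hJ : IsVirial Q T J) (h : NullCharges Q T J A K)
    (ht : TrNull T) {a b : V} {κ : V → ℝ} {G : ℝ → ℝ} (hA : Adm a b κ G) (v w : D) :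
    Tendsto (fun R => Ja J a b κ 0 G R v w) atTop
      (𝓝 ((∫ u, (G u : ℂ)) * inner ℂ w (Cop Q A K a b v))) := by
  have l := limJG (J := J) hT hJ h ht hA v w
  have hG := hA.2.2.2.2.2
  have hGt : Tst (deriv G) := H746.tder hG
  have hd := H746.tdif hG
  have hp3 : ContDiff ℝ ∞ fun u : ℝ => u := contDiff_id
  have hG3 : Tst fun u => u * G u := H846.tst_pol hG hp3
  have hd3 : ∀ u, deriv (fun u => u * G u) u = G u + u * deriv G u := by
    intro u
    have h1 := ((hasDerivAt_id u).mul (hd u).hasDerivAt).deriv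
    refine (Eq.trans ?_ h1).trans ?_
    · rfl
    · simp
  have e : (1 / 2 : ℂ) * ∫ u, ((deriv G u : ℝ) : ℂ) * kt Q A K a b v w u =
      (∫ u, (G u : ℂ)) * inner ℂ w (Cop Q A K a b v) := by
    rw [inner_Cop]
    set c0 : ℂ := kt Q A K a b v w 0 with hc0
    set c1 : ℂ := kt Q A K a b v w 1 - c0 with hc1
    have e1 : (fun u => ((deriv G u : ℝ) : ℂ) * kt Q A K a b v w u) = fun u =>
        (((deriv G u : ℝ) : ℂ) * c0 + ((deriv (fun u => u * G u) u : ℝ) : ℂ) * c1) -
          (G u : ℂ) * c1 := by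
      funext u
      rw [kt_aff hT hJ h ht hA.1 hA.2.1 hA.2.2.1 v w u, hd3]
      push_cast
      ring
    have j1 : Integrable fun u => ((deriv G u : ℝ) : ℂ) * c0 :=
      H755.tst_intR hGt continuous_const
    have j2 : Integrable fun u => ((deriv (fun u => u * G u) u : ℝ) : ℂ) * c1 :=
      H755.tst_intR (H746.tder hG3) continuous_const
    have j3 : Integrable fun u => (G u : ℂ) * c1 := H755.tst_intR hG continuous_const
    have s1 : ∫ u, ((((deriv G u : ℝ) : ℂ) * c0 + ((deriv (fun u => u * G u) u : ℝ) : ℂ) * c1) -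
          (G u : ℂ) * c1) = (∫ u, (((deriv G u : ℝ) : ℂ) * c0 +
            ((deriv (fun u => u * G u) u : ℝ) : ℂ) * c1)) - ∫ u, (G u : ℂ) * c1 :=
      integral_sub (j1.add j2) j3
    have s2 : ∫ u, (((deriv G u : ℝ) : ℂ) * c0 +
            ((deriv (fun u => u * G u) u : ℝ) : ℂ) * c1) =
        (∫ u, ((deriv G u : ℝ) : ℂ) * c0) + ∫ u, ((deriv (fun u => u * G u) u : ℝ) : ℂ) * c1 :=
      integral_add j1 j2
    rw [e1, s1, s2, integral_mul_const, integral_mul_const, integral_mul_const, int_deriv hG,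
      int_deriv hG3]
    ring
  rw [← e]
  exact l

/-- the operators `K_a(x)`: the deviation from the special conformal generators is the charge -/
theorem K_shift (hT : Q.IsStress T) (hJ : IsVirial Q T J) (h : NullCharges Q T J A K)
    (ht : TrNull T) {a b : V} (ha : IsNull a) (hb : IsNull b) (hab : GF.mdot a b = 1)
    (x : V) (v : D) :
    Q.U 1 GF.one x (K a (Q.U 1 GF.one (-x) v)) = K a v + A (H755.XX a x) v -
      ((2 * GF.mdot a x : ℝ) : ℂ) • Cop Q A K a b v := by
  set u : ℝ := GF.mdot a x with hu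
  set x0 : V := x - u • b with hx0
  have hax0 : GF.mdot a x0 = 0 := by
    rw [hx0, H755.md_sub, H755.md_smul, hab, mul_one, sub_self]
  have e1 : Q.U 1 GF.one x (K a (Q.U 1 GF.one (-x) v)) = Q.U 1 GF.one (u • b)
      (Q.U 1 GF.one x0 (K a (Q.U 1 GF.one (-x0) (Q.U 1 GF.one (-(u • b)) v)))) := by
    rw [H755.UU, H755.UU]
    have c1 : u • b + x0 = x := by rw [hx0]; module
    have c2 : -x0 + -(u • b) = -x := by rw [hx0]; module
    rw [c1, c2]
  have hs0 : IsSim 0 (H755.XX a x0) := by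
    have h1 := H755.XX_sim a x0
    rw [hax0] at h1
    simpa using h1
  rw [e1, H755.tra_zero hT h ha hax0, Vale.Agent.P352.U_add one_pos Vale.Agent.P352.isLor_one,
    H846.conj_A hT hJ h hs0 ha]
  -- the transversal direction
  have e2 : Q.U 1 GF.one (u • b) (K a (Q.U 1 GF.one (-(u • b)) v)) = K a v -
      ((2 * u : ℝ) : ℂ) • A (H846.Xw a b) v + ((2 * (u * u) : ℝ) : ℂ) • A (fun _ => b) v -
      ((2 * u : ℝ) : ℂ) • Cop Q A K a b v := by
    refine ext_inner_left ℂ fun w => ?_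
    have h1 := kt_aff hT hJ h ht ha hb hab v w u
    have h2 := inner_Cop (Q := Q) (A := A) (K := K) a b v w
    have h3 : kt Q A K a b v w u = inner ℂ w (Q.U 1 GF.one (u • b) (K a (Q.U 1 GF.one
      (-(u • b)) v))) + 2 * (u : ℂ) * inner ℂ w (A (H846.Xw a b) v) -
        2 * (u : ℂ) ^ 2 * inner ℂ w (A (fun _ => b) v) := rfl
    have h4 : kt Q A K a b v w 0 = inner ℂ w (K a v) := by
      unfold kt
      simp only [zero_smul, neg_zero, H755.U0, Complex.ofReal_zero]
      ring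
    rw [inner_sub_right, inner_add_right, inner_sub_right, inner_smul_right, inner_smul_right,
      inner_smul_right]
    push_cast
    rw [h3, h4] at h1
    rw [h4] at h2
    linear_combination h1 + (2 * (u : ℂ)) * h2
  have e3 : A (H755.XX a (u • b)) v = ((-2 * u : ℝ) : ℂ) • A (H846.Xw a b) v +
      ((2 * (u * u) : ℝ) : ℂ) • A (fun _ => b) v := H755.A_XXb h.toRep hb hab u v
  have e4 : A (H755.XX a x) v = A (H755.XX a (u • b)) v +
      A (fun z => H755.XX a x0 (z - u • b)) v := by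
    rw [← H755.A_addX h.toRep v (H755.XX_sim a (u • b)) (H755.sim_shift hs0 (u • b))]
    refine congrArg (fun X => A X v) (funext fun z => ?_)
    have hx : x = x0 + u • b := by rw [hx0]; module
    rw [hx]
    funext n
    simp only [H755.XX, cK, H755.md_smul, H755.md_smul_l, H755.md_add, H755.md_add_l,
      H755.md_sub, H755.md_sub_l, hab, hb.1, hax0,
      Pi.add_apply, Pi.sub_apply, Pi.smul_apply, smul_eq_mul]
    rw [H755.md_comm x0 b]
    ring
  rw [e4, e3, e2]
  push_cast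
  module

/-- the charge commutes with translations -/
theorem Cop_tr (hT : Q.IsStress T) (hJ : IsVirial Q T J) (h : NullCharges Q T J A K)
    (ht : TrNull T) {a b : V} (ha : IsNull a) (hb : IsNull b) (hab : GF.mdot a b = 1)
    (y : V) (v : D) :
    Q.U 1 GF.one y (Cop Q A K a b (Q.U 1 GF.one (-y) v)) = Cop Q A K a b v := by
  have hadd : ∀ v w, Q.U 1 GF.one y (v + w) = Q.U 1 GF.one y v + Q.U 1 GF.one y w := fun v w =>
    Vale.Agent.P352.U_add one_pos Vale.Agent.P352.isLor_one y v w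
  have hsm : ∀ (c : ℂ) v, Q.U 1 GF.one y (c • v) = c • Q.U 1 GF.one y v := fun c v =>
    Vale.Agent.P352.U_smul one_pos Vale.Agent.P352.isLor_one y c v
  have hsub : ∀ v w, Q.U 1 GF.one y (v - w) = Q.U 1 GF.one y v - Q.U 1 GF.one y w := by
    intro v w
    have h1 := hadd (v - w) w
    rw [sub_add_cancel] at h1
    rw [h1, add_sub_cancel_right]
  have k1 := K_shift hT hJ h ht ha hb hab (y + b) v
  have k2 := K_shift hT hJ h ht ha hb hab y v
  have e1 : Q.U 1 GF.one y (Q.U 1 GF.one b (K a (Q.U 1 GF.one (-b) (Q.U 1 GF.one (-y) v)))) =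
      Q.U 1 GF.one (y + b) (K a (Q.U 1 GF.one (-(y + b)) v)) := by
    rw [H755.UU, H755.UU]
    have c2 : -b + -y = -(y + b) := by module
    rw [c2]
  have hXs : IsSim 1 (fun z => H846.Xw a b (z - y)) := H755.sim_shift (H846.isSim_Xw a b) y
  have e5 : A (H755.XX a (y + b)) v = A (H755.XX a y) v -
      ((2 : ℂ) • A (fun z => H846.Xw a b (z - y)) v - (2 : ℂ) • A (fun _ => b) v) := by
    have h1 := h.add _ 0 2 _ _ v (H755.XX_sim a (y + b)) (H755.const_sim (0 : V))
    have h2 := H755.A_lin2 h.toRep (-2) 2 v hXs (H755.const_sim b)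
    have h3 : IsSim ((-2) * 1 + 2 * 0 : ℝ) (fun z => (-2 : ℝ) • (fun z => H846.Xw a b (z - y)) z +
        (2 : ℝ) • (fun _ : V => b) z) := by
      obtain ⟨c, w, hw, hz⟩ := hXs
      refine ⟨(-2 : ℝ) • c + (2 : ℝ) • b, fun m n => (-2) * w m n, fun m n => ?_, fun z n => ?_⟩
      · have := hw m n
        linear_combination (-2 : ℝ) * this
      · simp only [Pi.smul_apply, Pi.add_apply, smul_eq_mul]
        rw [show H846.Xw a b (z - y) n = c n + 1 * z n + ∑ m, z m * w m n from hz z n]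
        simp only [Fin.sum_univ_four]
        ring
    have h4 := H755.A_addX h.toRep v (H755.XX_sim a y) h3
    have h5 : (fun z => H755.XX a y z + ((-2 : ℝ) • (fun z => H846.Xw a b (z - y)) z +
        (2 : ℝ) • (fun _ : V => b) z)) = H755.XX a (y + b) := by
      funext z n
      have h6 := H755.md_comm y b
      simp only [H755.XX, H846.Xw, cK, H755.md_smul, H755.md_smul_l, H755.md_add, H755.md_add_l,
        H755.md_sub, H755.md_sub_l, hab, hb.1,
        Pi.add_apply, Pi.sub_apply, Pi.smul_apply, smul_eq_mul]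
      rw [h6]
      ring
    rw [h5, h2] at h4
    rw [h4]
    push_cast
    module
  show Q.U 1 GF.one y ((-(1 / 2) : ℂ) • (Q.U 1 GF.one b (K a (Q.U 1 GF.one (-b)
    (Q.U 1 GF.one (-y) v))) - K a (Q.U 1 GF.one (-y) v) +
    ((2 : ℂ) • A (H846.Xw a b) (Q.U 1 GF.one (-y) v) -
      (2 : ℂ) • A (fun _ => b) (Q.U 1 GF.one (-y) v)))) = _
  rw [hsm, hadd, hsub, hsub, hsm, hsm, e1, k1, k2, H846.conj_A hT hJ h (H846.isSim_Xw a b) ha,
    H846.conj_A hT hJ h (H846.isSim_const b) ha, e5, H755.md_add, hab]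
  push_cast
  module

/-- the charge does not depend on `b` -/
theorem Cop_b (hT : Q.IsStress T) (hJ : IsVirial Q T J) (h : NullCharges Q T J A K)
    (ht : TrNull T) {a b b' : V} (ha : IsNull a) (hb : IsNull b) (hab : GF.mdot a b = 1)
    (hb' : IsNull b') (hab' : GF.mdot a b' = 1) (v : D) :
    Cop Q A K a b' v = Cop Q A K a b v := by
  have k1 := K_shift hT hJ h ht ha hb hab b' v
  have e3 : A (H755.XX a ((1:ℝ) • b')) v = ((-2 * 1 : ℝ) : ℂ) • A (H846.Xw a b') v +
      ((2 * (1 * 1) : ℝ) : ℂ) • A (fun _ => b') v := H755.A_XXb h.toRep hb' hab' 1 v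
  rw [one_smul] at e3
  rw [hab', e3] at k1
  have e4 : Cop Q A K a b' v = (-(1 / 2) : ℂ) • (Q.U 1 GF.one b' (K a (Q.U 1 GF.one (-b') v)) -
    K a v + ((2 : ℂ) • A (H846.Xw a b') v - (2 : ℂ) • A (fun _ => b') v)) := rfl
  rw [e4, k1]
  push_cast
  module

/-- the charge of `J` on null hyperplanes, and the deviation of the second moments from the
special conformal generators -/
theorem charge (hT : Q.IsStress T) (hJ : IsVirial Q T J) (h : NullCharges Q T J A K)
    (ht : TrNull T) : ∃ C : V → D → D,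
    (∀ a b κ y ψ v w, Adm a b κ ψ → Tendsto (fun R => inner ℂ w
      (∑ m, J m (fun x => (eta m * a m * ctf a b κ y ψ R x : ℝ)) v)) atTop
      (𝓝 ((∫ u, (ψ u : ℂ)) * inner ℂ w (C a v)))) ∧
    (∀ a x v, IsNull a → Q.U 1 GF.one x (K a (Q.U 1 GF.one (-x) v)) = K a v +
      A (fun z => -(2 * GF.mdot a x) • z + (2 * GF.mdot x z) • a - (2 * GF.mdot a z) • x +
        cK a x) v - ((2 * GF.mdot a x : ℝ) : ℂ) • C a v) ∧
    (ConfGen Q A K ↔ ∀ a v, IsNull a → C a v = 0) := by
  classical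
  refine ⟨fun a v => if ha : IsNull a then Cop Q A K a (Classical.choose (H755.exists_dual ha)) v
    else 0, ?_, ?_, ?_⟩
  · intro a b κ y ψ v w hA
    have ha := hA.1
    have hb := hA.2.1
    have hab := hA.2.2.1
    have hb' := Classical.choose_spec (H755.exists_dual ha)
    simp only [dif_pos ha]
    rw [Cop_b hT hJ h ht ha hb hab hb'.1 hb'.2]
    have hψ := hA.2.2.2.2.2
    have hA' : Adm a b κ (fun u => ψ (u + GF.mdot a y)) := adm_of hA (tst_sh hψ _)
    have l := lim0 (J := J) hT hJ h ht hA' (Q.U 1 GF.one (-y) v) (Q.U 1 GF.one (-y) w)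
    have e1 : ∫ u : ℝ, (ψ (u + GF.mdot a y) : ℂ) = ∫ u : ℝ, (ψ u : ℂ) :=
      integral_add_right_eq_self (μ := (volume : Measure ℝ)) (fun u : ℝ => (ψ u : ℂ)) _
    have e2 : inner ℂ (Q.U 1 GF.one (-y) w) (Cop Q A K a b (Q.U 1 GF.one (-y) v)) =
        inner ℂ w (Cop Q A K a b v) := by
      rw [H846.inner_U1, Cop_tr hT hJ h ht ha hb hab]
    rw [e1, e2] at l
    refine l.congr' ?_
    filter_upwards [eventually_ge_atTop (1:ℝ)] with R hR
    rw [Ja_shift hJ hA' y hR]
    simp only [sub_add_cancel]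
    rfl
  · intro a x v ha
    have hb' := Classical.choose_spec (H755.exists_dual ha)
    simp only [dif_pos ha]
    exact K_shift hT hJ h ht ha hb'.1 hb'.2 x v
  · constructor
    · intro hc a v ha
      have hb' := Classical.choose_spec (H755.exists_dual ha)
      simp only [dif_pos ha]
      have h1 := K_shift hT hJ h ht ha hb'.1 hb'.2 (Classical.choose (H755.exists_dual ha)) v
      have h2 : Q.U 1 GF.one (Classical.choose (H755.exists_dual ha)) (K a (Q.U 1 GF.one
          (-(Classical.choose (H755.exists_dual ha))) v)) = K a v +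
          A (H755.XX a (Classical.choose (H755.exists_dual ha))) v :=
        hc.tra a (Classical.choose (H755.exists_dual ha)) v ha
      rw [h2, hb'.2] at h1
      have h3 : ((2 * 1 : ℝ) : ℂ) • Cop Q A K a (Classical.choose (H755.exists_dual ha)) v = 0 :=
        sub_eq_self.1 h1.symm
      exact (smul_eq_zero.1 h3).resolve_left (by norm_num)
    · intro hC
      refine H755.confGen hT hJ h ⟨ht, fun a b κ y ψ v w hA => ?_⟩
      have ha := hA.1
      have hb := hA.2.1
      have hab := hA.2.2.1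
      have hb' := Classical.choose_spec (H755.exists_dual ha)
      have h0 : ∀ v, Cop Q A K a b v = 0 := by
        intro v
        have h1 := hC a v ha
        simp only [dif_pos ha] at h1
        rw [← Cop_b hT hJ h ht ha hb hab hb'.1 hb'.2]
        exact h1
      have hψ := hA.2.2.2.2.2
      have hA' : Adm a b κ (fun u => ψ (u + GF.mdot a y)) := adm_of hA (tst_sh hψ _)
      have l := lim0 (J := J) hT hJ h ht hA' (Q.U 1 GF.one (-y) v) (Q.U 1 GF.one (-y) w)
      rw [h0, inner_zero_right, mul_zero] at l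
      refine l.congr' ?_
      filter_upwards [eventually_ge_atTop (1:ℝ)] with R hR
      rw [Ja_shift hJ hA' y hR]
      simp only [sub_add_cancel]
      rfl

end Vale.Agent.P352.H121

end
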