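import Vale.Agent.P352.Bdl.B2
import Vale.Agent.P352.H246.Dil

/-!
# Plane waves: multiplication by functions of `a·x`, band limited functions
-/

set_option linter.all false

noncomputable section

open MeasureTheory SchwartzMap Complex Filter Topology Set
open scoped SchwartzMap ComplexConjugate ENNReal LineDeriv ContDiff FourierTransform

namespace Vale.Agent.P352.H121

open GF (Ix V Fn Sch ev pd bar sim bas o)
open H246

lemma ft_inv (α : 𝓢(ℝ, ℂ)) (u : ℝ) :
    α u = ∫ s : ℝ, exp (I * (2 * Real.pi * s * u : ℝ)) * (𝓕 α : 𝓢(ℝ, ℂ)) s := by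
  have h1 : α = (𝓕⁻ (𝓕 α : 𝓢(ℝ, ℂ)) : 𝓢(ℝ, ℂ)) := (FourierTransform.fourierInv_fourier_eq α).symm
  conv_lhs => rw [h1]
  rw [SchwartzMap.fourierInv_coe, Real.fourierInv_eq']
  congr 1
  funext s
  rw [smul_eq_mul]
  congr 2
  simp only [RCLike.inner_apply, conj_trivial]
  push_cast
  ring

/-! ### Plane waves -/

/-- the functional `mdot a` -/
def mdL (a : Mink) : Mink →L[ℝ] ℝ := LinearMap.toContinuousLinearMap
  { toFun := fun x => mdot a x
    map_add' := fun x y => mdot_add_right a x y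
    map_smul' := fun c x => mdot_smul_right a x c }

@[simp] lemma mdL_apply (a x : Mink) : mdL a x = mdot a x := rfl

lemma growth_al (α : 𝓢(ℝ, ℂ)) (a : Mink) :
    (fun x : Mink => α (mdot a x)).HasTemperateGrowth :=
  α.hasTemperateGrowth.comp (mdL a).hasTemperateGrowth

/-- multiplication by `α (a·x)` -/
def mulE (α : 𝓢(ℝ, ℂ)) (a : Mink) : 𝓢(Mink, ℂ) →L[ℂ] 𝓢(Mink, ℂ) :=
  SchwartzMap.smulLeftCLM ℂ (fun x : Mink => α (mdot a x))

lemma mulE_apply (α : 𝓢(ℝ, ℂ)) (a : Mink) (G : 𝓢(Mink, ℂ)) (x : Mink) :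
    mulE α a G x = α (mdot a x) * G x := by
  rw [mulE, SchwartzMap.smulLeftCLM_apply_apply (growth_al α a), smul_eq_mul]

lemma mft_mulE (α : 𝓢(ℝ, ℂ)) (a : Mink) (G : 𝓢(Mink, ℂ)) (p : Mink) :
    mft (mulE α a G) p = ∫ s : ℝ, (𝓕 α : 𝓢(ℝ, ℂ)) s * mft G (p + (2 * Real.pi * s) • a) := by
  unfold mft
  have hal : ∀ u : ℝ, α u = ∫ s : ℝ, exp (I * (2 * Real.pi * s * u : ℝ)) *
      (𝓕 α : 𝓢(ℝ, ℂ)) s := ft_inv α
  simp only [mulE_apply]
  set r : 𝓢(ℝ, ℂ) := 𝓕 α with hr
  have hint : Integrable (Function.uncurry fun (x : Mink) (s : ℝ) =>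
      exp (I * (mdot p x : ℂ)) * (exp (I * (2 * Real.pi * s * mdot a x : ℝ)) * r s * G x))
      ((volume : Measure Mink).prod (volume : Measure ℝ)) := by
    have h1 : Integrable (fun z : Mink × ℝ => G z.1 * r z.2)
        ((volume : Measure Mink).prod (volume : Measure ℝ)) :=
      G.integrable.mul_prod r.integrable
    have h2 : Continuous fun z : Mink × ℝ =>
        exp (I * (mdot p z.1 : ℂ)) * exp (I * (2 * Real.pi * z.2 * mdot a z.1 : ℝ)) := by
      have e1 : Continuous fun z : Mink × ℝ => mdL p z.1 := by fun_prop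
      have e2 : Continuous fun z : Mink × ℝ => mdL a z.1 := by fun_prop
      simp only [mdL_apply] at e1 e2
      fun_prop
    have h3 := h1.bdd_mul (c := 1) h2.aestronglyMeasurable (Eventually.of_forall fun z => by
      rw [norm_mul, mul_comm I, mul_comm I, norm_exp_ofReal_mul_I, norm_exp_ofReal_mul_I, one_mul])
    refine h3.congr (Eventually.of_forall fun z => ?_)
    simp only [Function.uncurry]
    ring
  have h4 : ∀ x : Mink, exp (I * (mdot p x : ℂ)) * (α (mdot a x) * G x) =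
      ∫ s : ℝ, exp (I * (mdot p x : ℂ)) * (exp (I * (2 * Real.pi * s * mdot a x : ℝ)) *
        r s * G x) := by
    intro x
    rw [hal, integral_const_mul, integral_mul_const]
  simp only [h4]
  rw [integral_integral_swap hint]
  congr 1
  funext s
  rw [← integral_const_mul]
  congr 1
  funext x
  have e : (mdot (p + (2 * Real.pi * s) • a) x : ℂ) = mdot p x + (2 * Real.pi * s) * mdot a x := by
    rw [mdot_comm, mdot_add_right, mdot_smul_right, mdot_comm x p, mdot_comm x a]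
    push_cast
    ring
  rw [e, mul_add, Complex.exp_add]
  push_cast
  ring

/-! ### Band limited functions -/

/-- the Fourier transform is supported in the ball of radius `ε` -/
def BL (ε : ℝ) (B : 𝓢(Mink, ℂ)) : Prop := ∀ p, ε < ‖p‖ → mft B p = 0

lemma BL.add {ε : ℝ} {B C : 𝓢(Mink, ℂ)} (hB : BL ε B) (hC : BL ε C) (c : ℂ) :
    BL ε (B + c • C) := fun p hp => by
  rw [mft_add, mft_smul, hB p hp, hC p hp, mul_zero, add_zero]

lemma growth_md (a : Mink) : (fun x : Mink => ((mdot a x : ℝ) : ℂ)).HasTemperateGrowth :=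
  (Complex.ofRealCLM.comp (mdL a)).hasTemperateGrowth

lemma inner_mftEquiv (x v : Mink) : inner ℝ x (mftEquiv v) = -(2 * Real.pi)⁻¹ * mdot v x := by
  change inner ℝ x ((-(2 * Real.pi)⁻¹) • flipS v) = _
  rw [inner_smul_right, ← mdot_flipS, flipS_flipS, mdot_comm]

/-- derivative of the Fourier transform -/
lemma lineDeriv_mftS (f : 𝓢(Mink, ℂ)) (v : Mink) : ∂_{v} (mftS f) =
    mftS (I • SchwartzMap.smulLeftCLM ℂ (fun x : Mink => ((mdot v x : ℝ) : ℂ)) f) := by
  have h1 : mftS f = SchwartzMap.compCLMOfContinuousLinearEquiv ℂ mftEquiv (𝓕 f) := rfl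
  rw [h1, SchwartzMap.lineDerivOp_compCLMOfContinuousLinearEquiv,
    SchwartzMap.lineDerivOp_fourier_eq]
  have h2 : -(2 * Real.pi * I) • SchwartzMap.smulLeftCLM ℂ (fun x : Mink =>
      inner ℝ x (mftEquiv v)) f =
      I • SchwartzMap.smulLeftCLM ℂ (fun x : Mink => ((mdot v x : ℝ) : ℂ)) f := by
    ext x
    rw [SchwartzMap.smul_apply, SchwartzMap.smul_apply,
      SchwartzMap.smulLeftCLM_apply_apply (growth_md v),
      SchwartzMap.smulLeftCLM_apply_apply (by fun_prop), inner_mftEquiv]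
    simp only [smul_eq_mul, real_smul]
    have : (Real.pi : ℂ) ≠ 0 := by exact_mod_cast Real.pi_ne_zero
    push_cast
    field_simp
  rw [h2]
  rfl

lemma BL.X {ε : ℝ} {B : 𝓢(Mink, ℂ)} (hB : BL ε B) (m : Ix) : BL ε (Xm m B) := by
  intro p hp
  have h1 : (∂_{(eb m : Mink)} (mftS B) : 𝓢(Mink, ℂ)) p = 0 := by
    rw [lineDerivOp_apply_eq_fderiv]
    have h2 : (mftS B : Mink → ℂ) =ᶠ[𝓝 p] fun _ => 0 := by
      have h3 : ∀ᶠ q in 𝓝 p, ε < ‖q‖ := (isOpen_lt continuous_const continuous_norm).mem_nhds hp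
      filter_upwards [h3] with q hq
      rw [mftS_apply]
      exact hB q hq
    rw [h2.fderiv_eq]
    simp
  have h4 : SchwartzMap.smulLeftCLM ℂ (fun x : Mink => ((mdot (eb m) x : ℝ) : ℂ)) B =
      ((GF.eta m : ℝ) : ℂ) • Xm m B := by
    ext x
    rw [SchwartzMap.smulLeftCLM_apply_apply (growth_md _), SchwartzMap.smul_apply, Xm_apply]
    simp only [smul_eq_mul]
    rw [← mul_assoc]
    congr 1
    rw [← ofReal_mul]
    congr 1
    fin_cases m <;> simp [mdot, eb, GF.eta, GF.o]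
  rw [lineDeriv_mftS, h4, mftS_apply, mft_smul, mft_smul] at h1
  have h5 : ((GF.eta m : ℝ) : ℂ) ≠ 0 := by
    unfold GF.eta
    split_ifs <;> simp
  rcases mul_eq_zero.1 h1 with h | h
  · exact absurd h I_ne_zero
  · rcases mul_eq_zero.1 h with h | h
    · exact absurd h h5
    · exact h

end Vale.Agent.P352.H121

end
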