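import Vale.Agent.P352.H755.R7h

/-!
# TL criterion: the bilinear functionals of the light cone variables
-/

set_option linter.all false

noncomputable section

open MeasureTheory SchwartzMap Complex Filter Topology Set
open scoped SchwartzMap ComplexConjugate ENNReal LineDeriv ContDiff FourierTransform

namespace Vale.Agent.P352.H121

open GF (Ix V Fn Sch ev pd bar sim bas o)

/-- the functional `S = M + conj M conj` on test functions -/
structure SD (a : V) (S : Ix → Ix → Fn → ℂ) : Prop where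
  lin : ∀ m n f g (c : ℂ), GF.IsTest f → GF.IsTest g →
    S m n (fun x => f x + c * g x) = S m n f + c * S m n g
  symm : ∀ m n f, S m n f = S n m f
  cons : ∀ n f, GF.IsTest f → ∑ m, S m n (pd m f) = 0
  cov : ∀ s r (L : Ix → V) f m n, 0 < s → 0 < r → GF.IsLor L → sim 1 L 0 a = r • a →
    GF.IsTest f → S m n f = ∑ k, ∑ j, ((L k m * L j n / (r * s) : ℝ) : ℂ) *
      S k j (fun x => f (sim s L 0 x))
  loc : ∀ m n f (ε : ℝ), 0 < ε → GF.IsTest f → (∀ x, f x ≠ 0 → GF.mdot x x ≤ -ε) → S m n f = 0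

/-- the cutoff near the causal cone: `c = 1` if `-x·x` is small, and the products with Schwartz
functions of `a·x` and `b·x` are test functions -/
structure Cn (a b : V) (c : V → ℂ) : Prop where
  growth : Function.HasTemperateGrowth c
  one : ∀ x, -GF.mdot x x ≤ (1 + GF.mdot a x ^ 2 + GF.mdot b x ^ 2) / 4 → c x = 1
  test : ∀ (α β : 𝓢(ℝ, ℂ)) (P : V → ℂ), Function.HasTemperateGrowth P →
    GF.IsTest fun x => α (GF.mdot a x) * β (GF.mdot b x) * P x * c x

/-- the products -/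
def pr (a b : V) (c : V → ℂ) (α β : 𝓢(ℝ, ℂ)) (P : V → ℂ) : Fn :=
  fun x => α (GF.mdot a x) * β (GF.mdot b x) * P x * c x

/-- the covector components of the conformal Killing field `cK b` -/
def Yl (b : V) (n : Ix) (x : V) : ℂ := ((GF.eta n * H15.cK b x n : ℝ) : ℂ)

/-- `∑ S^{mn} (e_m Y_n α(a·x) β(b·x))` -/
def Ph (S : Ix → Ix → Fn → ℂ) (a b : V) (c : V → ℂ) (e : V) (α β : 𝓢(ℝ, ℂ)) : ℂ :=
  ∑ m, ∑ n, S m n (pr a b c α β fun x => ((GF.eta m * e m : ℝ) : ℂ) * Yl b n x)

/-- `∑ η_mm S^{mm} ((b·x) α(a·x) β(b·x))` -/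
def Tx (S : Ix → Ix → Fn → ℂ) (a b : V) (c : V → ℂ) (α β : 𝓢(ℝ, ℂ)) : ℂ :=
  ∑ m, (GF.eta m : ℂ) * S m m (pr a b c α β fun x => (GF.mdot b x : ℂ))

end Vale.Agent.P352.H121

end
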