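import Vale.Agent.P352.H121.TlE
import Vale.Agent.P352.H121.TlS

/-!
# Fourier supports of products of plane waves and band limited functions
-/

set_option linter.all false

noncomputable section

open MeasureTheory SchwartzMap Complex Filter Topology Set Metric
open scoped SchwartzMap ComplexConjugate ENNReal LineDeriv ContDiff FourierTransform

namespace Vale.Agent.P352.H121

open GF (Ix V Fn Sch ev pd bar sim bas o)
open H246

/-- momenta `-2π(s a + t b)` -/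
def Mo (I J : Set ℝ) (a b : Mink) : Set Mink :=
  (fun z : ℝ × ℝ => -((2 * Real.pi * z.1) • a + (2 * Real.pi * z.2) • b)) '' (I ×ˢ J)

lemma isCompact_Mo {I J : Set ℝ} (hI : IsCompact I) (hJ : IsCompact J) (a b : Mink) :
    IsCompact (Mo I J a b) :=
  (hI.prod hJ).image (by fun_prop)

/-- Fourier support of a product -/
lemma supp_prod {α β : 𝓢(ℝ, ℂ)} {I J : Set ℝ} (hα : ∀ s, (𝓕 α : 𝓢(ℝ, ℂ)) s ≠ 0 → s ∈ I)
    (hβ : ∀ s, (𝓕 β : 𝓢(ℝ, ℂ)) s ≠ 0 → s ∈ J) (a b : Mink) {ε : ℝ} {B : 𝓢(Mink, ℂ)}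
    (hB : BL ε B) {p : Mink} (hp : mft (mulE α a (mulE β b B)) p ≠ 0) :
    p ∈ cthickening ε (Mo I J a b) := by
  rw [mft_mulE] at hp
  obtain ⟨s, hs⟩ : ∃ s : ℝ, (𝓕 α : 𝓢(ℝ, ℂ)) s *
      mft (mulE β b B) (p + (2 * Real.pi * s) • a) ≠ 0 := by
    by_contra h
    push Not at h
    exact hp (by simp [h])
  have h1 := left_ne_zero_of_mul hs
  have h2 := right_ne_zero_of_mul hs
  rw [mft_mulE] at h2
  obtain ⟨t, ht⟩ : ∃ t : ℝ, (𝓕 β : 𝓢(ℝ, ℂ)) t *
      mft B (p + (2 * Real.pi * s) • a + (2 * Real.pi * t) • b) ≠ 0 := by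
    by_contra h
    push Not at h
    exact h2 (by simp [h])
  have h3 := left_ne_zero_of_mul ht
  have h4 := right_ne_zero_of_mul ht
  have h5 : ‖p + (2 * Real.pi * s) • a + (2 * Real.pi * t) • b‖ ≤ ε := by
    by_contra h
    exact h4 (hB _ (not_le.1 h))
  refine mem_cthickening_of_dist_le p (-((2 * Real.pi * s) • a + (2 * Real.pi * t) • b)) ε _
    ⟨(s, t), ⟨hα s h1, hβ t h3⟩, rfl⟩ ?_
  rw [dist_eq_norm]
  refine le_trans (le_of_eq ?_) h5
  congr 1
  abel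

/-! ### The band limited cutoff -/

lemma exists_kap : ∃ κ : 𝓢(Mink, ℂ), BL 1 κ ∧ κ 0 = 1 := by
  have φ : ContDiffBump (0 : Mink) := ⟨1 / 2, 1, by norm_num, by norm_num⟩
  obtain ⟨φ, hin, hout⟩ : ∃ φ : ContDiffBump (0 : Mink), φ.rIn = 1 / 2 ∧ φ.rOut = 1 :=
    ⟨⟨1 / 2, 1, by norm_num, by norm_num⟩, rfl, rfl⟩
  have hcs : HasCompactSupport fun x : Mink => ((φ x : ℝ) : ℂ) :=
    φ.hasCompactSupport.comp_left (g := fun t : ℝ => (t : ℂ)) (by simp)
  have hcd : ContDiff ℝ ∞ fun x : Mink => ((φ x : ℝ) : ℂ) :=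
    Complex.ofRealCLM.contDiff.comp φ.contDiff
  set Φ : 𝓢(Mink, ℂ) := hcs.toSchwartzMap hcd with hΦ
  have hΦa : ∀ x, Φ x = ((φ x : ℝ) : ℂ) := fun x => rfl
  set Ψ : 𝓢(Mink, ℂ) := SchwartzMap.compCLMOfContinuousLinearEquiv ℂ mftEquiv.symm Φ with hΨ
  have hΨa : ∀ x, Ψ x = ((φ (mftEquiv.symm x) : ℝ) : ℂ) := fun x => by
    rw [hΨ, SchwartzMap.compCLMOfContinuousLinearEquiv_apply]
    rfl
  set κ : 𝓢(Mink, ℂ) := 𝓕⁻ Ψ with hκ
  have h1 : mftS κ = Φ := by
    have : mftS κ = SchwartzMap.compCLMOfContinuousLinearEquiv ℂ mftEquiv (𝓕 κ) := rfl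
    rw [this, hκ, FourierTransform.fourier_fourierInv_eq]
    ext x
    rw [SchwartzMap.compCLMOfContinuousLinearEquiv_apply, Function.comp_apply, hΨa, hΦa]
    simp
  have h2 : κ 0 = ((∫ x, φ (mftEquiv.symm x) : ℝ) : ℂ) := by
    rw [hκ, SchwartzMap.fourierInv_coe, Real.fourierInv_eq', ← integral_complex_ofReal]
    congr 1
    funext x
    rw [hΨa]
    simp
  have h3 : 0 < ∫ x, φ (mftEquiv.symm x) := by
    refine Continuous.integral_pos_of_hasCompactSupport_nonneg_nonzero (x := 0) ?_ ?_ ?_ ?_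
    · exact φ.continuous.comp mftEquiv.symm.continuous
    · exact φ.hasCompactSupport.comp_homeomorph mftEquiv.symm.toHomeomorph
    · exact fun x => φ.nonneg
    · rw [map_zero, φ.one_of_mem_closedBall (by simp [hin])]
      exact one_ne_zero
  have h3' : ((∫ x, φ (mftEquiv.symm x) : ℝ) : ℂ) ≠ 0 := by exact_mod_cast h3.ne'
  refine ⟨(κ 0)⁻¹ • κ, fun p hp => ?_, ?_⟩
  · rw [mft_smul, ← mftS_apply, h1, hΦa, φ.zero_of_le_dist, ofReal_zero, mul_zero]
    rw [hout, dist_zero_right]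
    exact hp.le
  · rw [SchwartzMap.smul_apply, smul_eq_mul, inv_mul_cancel₀]
    rw [h2]
    exact h3'

lemma BL.scale {ε : ℝ} {B : 𝓢(Mink, ℂ)} (hB : BL ε B) {R : ℝ} (hR : 0 < R) :
    BL (ε / R) (scaleS R⁻¹ (inv_pos.2 hR).ne' B) := by
  intro p hp
  rw [mft_scaleS R⁻¹ (inv_pos.2 hR), inv_inv, hB, mul_zero]
  rw [norm_smul, Real.norm_of_nonneg hR.le]
  rwa [div_lt_iff₀ hR, mul_comm] at hp

/-! ### Polynomials -/

/-- multiplication by `P` does not enlarge the Fourier support of band limited functions -/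
def Pb (P : Mink → ℂ) : Prop := P.HasTemperateGrowth ∧
  ∀ ε B, BL ε B → BL ε (SchwartzMap.smulLeftCLM ℂ P B)

lemma Pb.const (c : ℂ) : Pb fun _ => c := by
  have hg : (fun _ : Mink => c).HasTemperateGrowth := .const c
  refine ⟨hg, fun ε B hB p hp => ?_⟩
  have : SchwartzMap.smulLeftCLM ℂ (fun _ : Mink => c) B = c • B := by
    ext x
    rw [SchwartzMap.smulLeftCLM_apply_apply hg]
    rfl
  rw [this, mft_smul, hB p hp, mul_zero]

lemma Pb.add {P P' : Mink → ℂ} (h : Pb P) (h' : Pb P') (c : ℂ) :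
    Pb fun x => P x + c * P' x := by
  have hg : (fun x => P x + c * P' x).HasTemperateGrowth :=
    h.1.add ((Function.HasTemperateGrowth.const c).mul h'.1)
  refine ⟨hg, fun ε B hB => ?_⟩
  have : SchwartzMap.smulLeftCLM ℂ (fun x => P x + c * P' x) B =
      SchwartzMap.smulLeftCLM ℂ P B + c • SchwartzMap.smulLeftCLM ℂ P' B := by
    ext x
    rw [SchwartzMap.smulLeftCLM_apply_apply hg, SchwartzMap.add_apply, SchwartzMap.smul_apply,
      SchwartzMap.smulLeftCLM_apply_apply h.1, SchwartzMap.smulLeftCLM_apply_apply h'.1]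
    simp only [smul_eq_mul]
    ring
  rw [this]
  exact (h.2 ε B hB).add (h'.2 ε B hB) c

lemma Pb.X {P : Mink → ℂ} (h : Pb P) (m : Ix) : Pb fun x => ((x m : ℝ) : ℂ) * P x := by
  have hg : (fun x : Mink => ((x m : ℝ) : ℂ) * P x).HasTemperateGrowth :=
    (growth_coord m).mul h.1
  refine ⟨hg, fun ε B hB => ?_⟩
  have : SchwartzMap.smulLeftCLM ℂ (fun x : Mink => ((x m : ℝ) : ℂ) * P x) B =
      Xm m (SchwartzMap.smulLeftCLM ℂ P B) := by
    ext x
    rw [SchwartzMap.smulLeftCLM_apply_apply hg, Xm_apply,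
      SchwartzMap.smulLeftCLM_apply_apply h.1]
    simp only [smul_eq_mul]
    ring
  rw [this]
  exact (h.2 ε B hB).X m

lemma Pb.congr {P P' : Mink → ℂ} (h : Pb P) (e : ∀ x, P' x = P x) : Pb P' := by
  rw [show P' = P from funext e]; exact h

lemma Pb.smul {P : Mink → ℂ} (h : Pb P) (c : ℂ) : Pb fun x => c * P x :=
  ((Pb.const 0).add h c).congr fun x => by ring

lemma Pb.sum {P : Ix → Mink → ℂ} (h : ∀ m, Pb (P m)) : Pb fun x => ∑ m, P m x :=
  (((h 0).add (h 1) 1).add (h 2) 1 |>.add (h 3) 1).congr fun x => by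
    rw [Fin.sum_univ_four]; ring

end Vale.Agent.P352.H121

end
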