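import Vale.Agent.P352.H121.TlF
import Vale.Agent.P352.H246.Rc6
import Vale.Agent.P352.H148.TlB

/-!
# Values of the bilinear functionals
-/

set_option linter.all false

noncomputable section

open MeasureTheory SchwartzMap Complex Filter Topology Set Metric
open scoped SchwartzMap ComplexConjugate ENNReal LineDeriv ContDiff FourierTransform

namespace Vale.Agent.P352.H121

open GF (Ix V Fn Sch ev pd bar sim bas o)
open H246 H496 H246R

/-! ### Momenta -/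

/-- positive frequencies -/
def Ip : Set ℝ := Icc (1 / 4) 2

/-- negative frequencies -/
def Im' : Set ℝ := Icc (-2) (-(1 / 4))

lemma mdot_Mo {A B : Mink} (hA : mdot A A = 0) (hB : mdot B B = 0) (hAB : mdot A B = 1) (s t : ℝ) :
    mdot (-(s • A + t • B)) (-(s • A + t • B)) = 2 * (s * t) := by
  simp only [mdot, PiLp.neg_apply, PiLp.add_apply, PiLp.smul_apply, smul_eq_mul] at *
  linear_combination (s ^ 2) * hA + (t ^ 2) * hB + (2 * s * t) * hAB

lemma cont_mdot_self : Continuous fun p : Mink => mdot p p := by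
  unfold mdot
  fun_prop

lemma exists_neg {A B : Mink} (hA : mdot A A = 0) (hB : mdot B B = 0) (hAB : mdot A B = 1)
    {I J : Set ℝ} (hI : IsCompact I) (hJ : IsCompact J) (h : ∀ s ∈ I, ∀ t ∈ J, s * t < 0) :
    ∃ ε, 0 < ε ∧ cthickening ε (Mo I J A B) ⊆ {p | mdot p p < 0} := by
  refine (isCompact_Mo hI hJ A B).exists_cthickening_subset_open
    (isOpen_lt cont_mdot_self continuous_const) ?_
  rintro _ ⟨⟨s, t⟩, ⟨hs, ht⟩, rfl⟩
  show mdot _ _ < 0
  rw [mdot_Mo hA hB hAB]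
  have h1 := h s hs t ht
  have h2 := Real.pi_pos
  have h3 : 2 * (2 * Real.pi * s * (2 * Real.pi * t)) = 8 * Real.pi ^ 2 * (s * t) := by ring
  rw [h3]
  exact mul_neg_of_pos_of_neg (by positivity) h1

lemma exists_pos {A B : Mink} (hA : mdot A A = 0) (hB : mdot B B = 0) (hAB : mdot A B = 1)
    (hA0 : 0 < A 0) (hB0 : 0 < B 0) :
    ∃ ε, 0 < ε ∧ cthickening ε (Mo Im' Im' A B) ⊆ Vp := by
  refine (isCompact_Mo isCompact_Icc isCompact_Icc A B).exists_cthickening_subset_open ?_ ?_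
  · have h1 : Continuous fun p : Mink => H246R.pm p := by unfold H246R.pm; fun_prop
    have h2 : IsOpen {p : Mink | 0 < H246R.pm p} := isOpen_lt continuous_const h1
    have h3 : IsOpen {p : Mink | 0 < mdot p p} := isOpen_lt continuous_const cont_mdot_self
    exact h2.inter h3
  rintro _ ⟨⟨s, t⟩, ⟨hs, ht⟩, rfl⟩
  have h2 := Real.pi_pos
  have hs' : s < 0 := lt_of_le_of_lt hs.2 (by norm_num)
  have ht' : t < 0 := lt_of_le_of_lt ht.2 (by norm_num)
  have hm : 0 < mass2 (-((2 * Real.pi * s) • A + (2 * Real.pi * t) • B)) := by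
    show 0 < mdot _ _
    rw [mdot_Mo hA hB hAB]
    have h3 : 2 * (2 * Real.pi * s * (2 * Real.pi * t)) = 8 * Real.pi ^ 2 * (s * t) := by ring
    rw [h3]
    exact mul_pos (by positivity) (mul_pos_of_neg_of_neg hs' ht')
  refine ⟨?_, hm⟩
  set z : Mink := -((2 * Real.pi * s) • A + (2 * Real.pi * t) • B) with hz
  have hz0 : 0 < z 0 := by
    have e : z 0 = (2 * Real.pi * (-s)) * A 0 + (2 * Real.pi * (-t)) * B 0 := by
      rw [hz]
      simp only [PiLp.neg_apply, PiLp.add_apply, PiLp.smul_apply, smul_eq_mul]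
      ring
    rw [e]
    have : 0 < -s := by linarith
    have : 0 < -t := by linarith
    positivity
  show 0 < z 0 + z 1
  have h4 : 0 < z 0 * z 0 - z 1 * z 1 - z 2 * z 2 - z 3 * z 3 := hm
  by_contra hle
  push Not at hle
  nlinarith [mul_self_nonneg (z 2), mul_self_nonneg (z 3)]

/-! ### The cutoff products -/

variable {a b : V} {S : Ix → Ix → Fn → ℂ} {c : V → ℂ} {θ : ℂ}

/-- the properties of `S` used here -/
structure SE (a : V) (θ : ℂ) (S : Ix → Ix → Fn → ℂ) : Prop extends SD a S where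
  lim : ∀ m n f κ, GF.IsTest f → GF.IsTest κ → κ 0 = 1 →
    Tendsto (fun R : ℝ => S m n fun x => f x * κ (R⁻¹ • x)) atTop (𝓝 (S m n f))
  spec : ∀ m n (F : 𝓢(Mink, ℂ)), (∀ p, mft F p ≠ 0 → mdot p p < 0) → S m n (fl F) = 0
  tra : ∀ F : 𝓢(Mink, ℂ), PC (mftS F) → ∑ m, (GF.eta m : ℂ) * S m m (fl F) =
    θ * (∂_{(WithLp.toLp 2 a : Mink)} F : 𝓢(Mink, ℂ)) 0

lemma lim_pr (hS : SE a θ S) (hc : Cn a b c) (α β : 𝓢(ℝ, ℂ)) {P : V → ℂ}
    (hP : Function.HasTemperateGrowth P) {κ : Fn} (hκ : GF.IsTest κ) (h1 : κ 0 = 1) (m n : Ix) :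
    Tendsto (fun R : ℝ => S m n fun x => α (GF.mdot a x) * β (GF.mdot b x) * P x * κ (R⁻¹ • x))
      atTop (𝓝 (S m n (pr a b c α β P))) := by
  refine (hS.lim m n _ κ (hc.test α β P hP) hκ h1).congr' ?_
  filter_upwards [eventually_gt_atTop (0 : ℝ)] with R hR
  have t1 : GF.IsTest fun x => α (GF.mdot a x) * β (GF.mdot b x) * P x * κ (R⁻¹ • x) :=
    H148.isTest_kF α β hP hκ hR
  have t2 : GF.IsTest fun x => (α (GF.mdot a x) * β (GF.mdot b x) * P x * κ (R⁻¹ • x)) * c x :=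
    H148.isTest_mul t1 hc.growth
  have t3 : GF.IsTest fun x => (α (GF.mdot a x) * β (GF.mdot b x) * P x * κ (R⁻¹ • x)) *
      (1 - c x) := H148.isTest_mul t1 ((Function.HasTemperateGrowth.const 1).sub hc.growth)
  have e1 := hS.lin m n _ _ 1 t2 t3
  have e2 : S m n (fun x => (α (GF.mdot a x) * β (GF.mdot b x) * P x * κ (R⁻¹ • x)) *
      (1 - c x)) = 0 := by
    refine hS.loc m n _ (1 / 4) (by norm_num) t3 fun x hx => ?_
    have h2 : c x ≠ 1 := by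
      intro h
      apply hx
      rw [h, sub_self, mul_zero]
    by_contra h3
    push Not at h3
    exact h2 (hc.one x (by nlinarith [sq_nonneg (GF.mdot a x), sq_nonneg (GF.mdot b x)]))
  rw [e2, mul_zero, add_zero] at e1
  have e3 : (fun x => α (GF.mdot a x) * β (GF.mdot b x) * P x * κ (R⁻¹ • x)) = fun x =>
      (α (GF.mdot a x) * β (GF.mdot b x) * P x * κ (R⁻¹ • x)) * c x +
        1 * ((α (GF.mdot a x) * β (GF.mdot b x) * P x * κ (R⁻¹ • x)) * (1 - c x)) := by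
    funext x; ring
  rw [e3, e1]
  congr 1
  funext x
  ring

/-- the product with a band limited cutoff, as a Schwartz function -/
def FR (a b : V) (α β : 𝓢(ℝ, ℂ)) (P : Mink → ℂ) (κ : 𝓢(Mink, ℂ)) (R : ℝ) (hR : 0 < R) :
    𝓢(Mink, ℂ) :=
  mulE α (WithLp.toLp 2 a) (mulE β (WithLp.toLp 2 b)
    (SchwartzMap.smulLeftCLM ℂ P (scaleS R⁻¹ (inv_pos.2 hR).ne' κ)))

lemma fl_FR (α β : 𝓢(ℝ, ℂ)) {P : Mink → ℂ} (hP : P.HasTemperateGrowth) (κ : 𝓢(Mink, ℂ)) {R : ℝ}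
    (hR : 0 < R) : fl (FR a b α β P κ R hR) = fun x => α (GF.mdot a x) * β (GF.mdot b x) *
      P (WithLp.toLp 2 x) * fl κ (R⁻¹ • x) := by
  funext x
  simp only [fl_apply, FR, mulE_apply]
  rw [SchwartzMap.smulLeftCLM_apply_apply hP, scaleS_apply, mdot_eq, mdot_eq]
  simp only [smul_eq_mul, WithLp.toLp_smul]
  ring

lemma supp_FR {α β : 𝓢(ℝ, ℂ)} {I J : Set ℝ} (hα : ∀ s, (𝓕 α : 𝓢(ℝ, ℂ)) s ≠ 0 → s ∈ I)
    (hβ : ∀ s, (𝓕 β : 𝓢(ℝ, ℂ)) s ≠ 0 → s ∈ J) {P : Mink → ℂ} (hP : Pb P) {κ : 𝓢(Mink, ℂ)}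
    (hκ : BL 1 κ) {ε : ℝ} (hε : 0 < ε) : ∀ᶠ R in atTop, ∀ hR : 0 < R, ∀ p,
      mft (FR a b α β P κ R hR) p ≠ 0 →
        p ∈ cthickening ε (Mo I J (WithLp.toLp 2 a) (WithLp.toLp 2 b)) := by
  filter_upwards [eventually_ge_atTop (1 / ε)] with R hRε hR p hp
  have h1 := supp_prod hα hβ (WithLp.toLp 2 a) (WithLp.toLp 2 b) (hP.2 _ _ (hκ.scale hR)) hp
  refine cthickening_mono ?_ _ h1
  rw [div_le_iff₀ hR]
  rw [div_le_iff₀ hε] at hRε
  linarith [mul_comm R ε]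

lemma growth_V {P : V → ℂ} (hP : Pb fun x : Mink => P x.ofLp) :
    Function.HasTemperateGrowth P := by
  have h1 : P = (fun x : Mink => P x.ofLp) ∘ ((EuclideanSpace.equiv (Fin 4) ℝ).symm : V → Mink) := by
    funext x; rfl
  rw [h1]
  exact hP.1.comp ((EuclideanSpace.equiv (Fin 4) ℝ).symm : V →L[ℝ] Mink).hasTemperateGrowth

/-- functions of spacelike momenta do not contribute -/
theorem S_zero (hS : SE a θ S) (hc : Cn a b c) (ha : GF.mdot a a = 0) (hb : GF.mdot b b = 0)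
    (hab : GF.mdot a b = 1) {α β : 𝓢(ℝ, ℂ)} {I J : Set ℝ} (hI : IsCompact I) (hJ : IsCompact J)
    (hIJ : ∀ s ∈ I, ∀ t ∈ J, s * t < 0) (hα : ∀ s, (𝓕 α : 𝓢(ℝ, ℂ)) s ≠ 0 → s ∈ I)
    (hβ : ∀ s, (𝓕 β : 𝓢(ℝ, ℂ)) s ≠ 0 → s ∈ J) {P : V → ℂ} (hP : Pb fun x : Mink => P x.ofLp)
    (m n : Ix) : S m n (pr a b c α β P) = 0 := by
  obtain ⟨κ, hκ, hκ1⟩ := exists_kap
  obtain ⟨ε, hε, hM⟩ := exists_neg (A := WithLp.toLp 2 a) (B := WithLp.toLp 2 b)
    (by rw [mdot_eq]; exact ha) (by rw [mdot_eq]; exact hb) (by rw [mdot_eq]; exact hab)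
    hI hJ hIJ
  refine tendsto_nhds_unique (lim_pr hS hc α β (growth_V hP) (isTest_fl κ)
    (by rw [fl_apply, WithLp.toLp_zero]; exact hκ1) m n) ?_
  refine tendsto_const_nhds.congr' ?_
  filter_upwards [eventually_gt_atTop (0 : ℝ), supp_FR (a := a) (b := b) hα hβ hP hκ hε] with R hR h1
  have h2 := fl_FR (a := a) (b := b) α β hP.1 κ hR
  simp only at h2
  rw [← h2]
  exact (hS.spec m n _ fun p hp => hM (h1 hR p hp)).symm

end Vale.Agent.P352.H121

end
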