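import Vale.Agent.P352.H121.TlG
import Vale.Agent.P352.H846.TlOne

/-!
# The core of the TL criterion
-/

set_option linter.all false

noncomputable section

open MeasureTheory SchwartzMap Complex Filter Topology Set Metric
open scoped SchwartzMap ComplexConjugate ENNReal LineDeriv ContDiff FourierTransform

namespace Vale.Agent.P352.H121

open GF (Ix V Fn Sch ev pd bar sim bas o)
open H246 H496 H246R

/-! ### Polynomials -/

lemma Pb_mdot (b : V) : Pb fun x : Mink => ((GF.mdot b x.ofLp : ℝ) : ℂ) :=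
  (Pb.sum fun m => ((Pb.const 1).X m).smul ((GF.eta m * b m : ℝ) : ℂ)).congr fun x => by
    unfold GF.mdot
    push_cast
    exact Finset.sum_congr rfl fun m _ => by ring

lemma Pb_sq : Pb fun x : Mink => ((GF.mdot x.ofLp x.ofLp : ℝ) : ℂ) :=
  (Pb.sum fun m => (((Pb.const 1).X m).X m).smul ((GF.eta m : ℝ) : ℂ)).congr fun x => by
    unfold GF.mdot
    push_cast
    exact Finset.sum_congr rfl fun m _ => by ring

lemma Pb_Yl (e : ℂ) (b : V) (n : Ix) : Pb fun x : Mink => e * Yl b n x.ofLp :=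
  ((((Pb_mdot b).X n).smul (2 * GF.eta n : ℂ)).add Pb_sq (-(GF.eta n * b n : ℂ))).smul e |>.congr
    fun x => by
      simp only [Yl, H15.cK, Pi.sub_apply, Pi.smul_apply, smul_eq_mul]
      push_cast
      ring

variable {a b : V} {S : Ix → Ix → Fn → ℂ} {c : V → ℂ} {θ : ℂ}

theorem Ph_zero (hS : SE a θ S) (hc : Cn a b c) (ha : GF.mdot a a = 0) (hb : GF.mdot b b = 0)
    (hab : GF.mdot a b = 1) {α β : 𝓢(ℝ, ℂ)} {I J : Set ℝ} (hI : IsCompact I) (hJ : IsCompact J)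
    (hIJ : ∀ s ∈ I, ∀ t ∈ J, s * t < 0) (hα : ∀ s, (𝓕 α : 𝓢(ℝ, ℂ)) s ≠ 0 → s ∈ I)
    (hβ : ∀ s, (𝓕 β : 𝓢(ℝ, ℂ)) s ≠ 0 → s ∈ J) (e : V) : Ph S a b c e α β = 0 :=
  Finset.sum_eq_zero fun m _ => Finset.sum_eq_zero fun n _ =>
    S_zero hS hc ha hb hab hI hJ hIJ hα hβ (Pb_Yl _ b n) m n

lemma Ph_lin (hS : SD a S) (hc : Cn a b c) (e : V) {f g h : 𝓢(ℝ, ℂ)} (k : ℂ)
    (hh : ∀ u, h u = f u + k * g u) (β : 𝓢(ℝ, ℂ)) :
    Ph S a b c e h β = Ph S a b c e f β + k * Ph S a b c e g β := by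
  have hg : ∀ m n, Function.HasTemperateGrowth fun x : V => ((GF.eta m * e m : ℝ) : ℂ) * Yl b n x :=
    fun m n => growth_V (Pb_Yl _ b n)
  unfold Ph
  rw [Finset.mul_sum, ← Finset.sum_add_distrib]
  refine Finset.sum_congr rfl fun m _ => ?_
  rw [Finset.mul_sum, ← Finset.sum_add_distrib]
  refine Finset.sum_congr rfl fun n _ => ?_
  refine Eq.trans ?_ (hS.lin m n _ _ k (hc.test f β _ (hg m n)) (hc.test g β _ (hg m n)))
  congr 1
  funext x
  simp only [pr, hh]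
  ring

lemma Ph_lin' (hS : SD a S) (hc : Cn a b c) (e : V) {f g h : 𝓢(ℝ, ℂ)} (k : ℂ)
    (hh : ∀ u, h u = f u + k * g u) (α : 𝓢(ℝ, ℂ)) :
    Ph S a b c e α h = Ph S a b c e α f + k * Ph S a b c e α g := by
  have hg : ∀ m n, Function.HasTemperateGrowth fun x : V => ((GF.eta m * e m : ℝ) : ℂ) * Yl b n x :=
    fun m n => growth_V (Pb_Yl _ b n)
  unfold Ph
  rw [Finset.mul_sum, ← Finset.sum_add_distrib]
  refine Finset.sum_congr rfl fun m _ => ?_
  rw [Finset.mul_sum, ← Finset.sum_add_distrib]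
  refine Finset.sum_congr rfl fun n _ => ?_
  refine Eq.trans ?_ (hS.lin m n _ _ k (hc.test α f _ (hg m n)) (hc.test α g _ (hg m n)))
  congr 1
  funext x
  simp only [pr, hh]
  ring

/-! ### The trace -/

lemma pc_of {F : 𝓢(Mink, ℂ)} {K : Set Mink} (hK : IsCompact K) (hKc : IsClosed K) (hV : K ⊆ Vp)
    (h : ∀ p, mft F p ≠ 0 → p ∈ K) : PC (mftS F) := by
  have h1 : Function.support (mftS F) ⊆ K := fun p hp => h p (by rwa [← mftS_apply])
  have h2 : tsupport (mftS F) ⊆ K := closure_minimal h1 hKc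
  exact ⟨HasCompactSupport.of_support_subset_isCompact hK h1, h2.trans hV⟩

theorem Tx_val (hS : SE a θ S) (hc : Cn a b c) (ha : IsNull a) (hb : IsNull b)
    (hab : GF.mdot a b = 1) {ρ : 𝓢(ℝ, ℂ)} (hρ : ∀ s, (𝓕 ρ : 𝓢(ℝ, ℂ)) s ≠ 0 → s ∈ Im') :
    Tx S a b c ρ ρ = θ * ρ 0 ^ 2 := by
  obtain ⟨κ, hκ, hκ1⟩ := exists_kap
  obtain ⟨ε, hε, hM⟩ := exists_pos (A := WithLp.toLp 2 a) (B := WithLp.toLp 2 b)
    (by rw [mdot_eq]; exact ha.1) (by rw [mdot_eq]; exact hb.1) (by rw [mdot_eq]; exact hab)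
    ha.2 hb.2
  have hP := Pb_mdot b
  have hPV : Function.HasTemperateGrowth fun x : V => ((GF.mdot b x : ℝ) : ℂ) := growth_V hP
  refine tendsto_nhds_unique (tendsto_finset_sum _ fun m _ =>
    (lim_pr hS hc ρ ρ hPV (isTest_fl κ)
      (by rw [fl_apply, WithLp.toLp_zero]; exact hκ1) m m).const_mul (GF.eta m : ℂ)) ?_
  refine tendsto_const_nhds.congr' ?_
  filter_upwards [eventually_gt_atTop (0 : ℝ), supp_FR (a := a) (b := b) hρ hρ hP hκ hε] with R hR h1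
  have h2 := fl_FR (a := a) (b := b) ρ ρ hP.1 κ hR
  simp only at h2
  rw [← h2, hS.tra _ (pc_of ((isCompact_Mo isCompact_Icc isCompact_Icc _ _).cthickening)
    isClosed_cthickening hM (h1 hR))]
  congr 1
  set G : 𝓢(Mink, ℂ) := mulE ρ (WithLp.toLp 2 a) (mulE ρ (WithLp.toLp 2 b)
    (scaleS R⁻¹ (inv_pos.2 hR).ne' κ)) with hG
  have e1 : (FR a b ρ ρ (fun x : Mink => ((GF.mdot b x.ofLp : ℝ) : ℂ)) κ R hR : Mink → ℂ) =
      fun x => ((mdL (WithLp.toLp 2 b) x : ℝ) : ℂ) * G x := by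
    funext x
    simp only [FR, hG, mulE_apply]
    rw [SchwartzMap.smulLeftCLM_apply_apply hP.1, mdL_apply]
    simp only [smul_eq_mul, mdot_eq]
    ring
  have e2 : HasFDerivAt (fun x : Mink => ((mdL (WithLp.toLp 2 b) x : ℝ) : ℂ))
      (Complex.ofRealCLM.comp (mdL (WithLp.toLp 2 b))) 0 :=
    (Complex.ofRealCLM.comp (mdL (WithLp.toLp 2 b))).hasFDerivAt
  have e3 := e2.mul (G.differentiableAt (x := 0)).hasFDerivAt
  rw [lineDerivOp_apply_eq_fderiv, e1]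
  have e4 := e3.fderiv
  have e5 : (fun x : Mink => ((mdL (WithLp.toLp 2 b) x : ℝ) : ℂ) * G x) =
      (fun x : Mink => ((mdL (WithLp.toLp 2 b) x : ℝ) : ℂ)) * G := rfl
  rw [e5, e4]
  have e6 : mdot (WithLp.toLp 2 b : Mink) (WithLp.toLp 2 a) = 1 := by
    rw [mdot_comm, mdot_eq]; exact hab
  have e7 : G 0 = ρ 0 ^ 2 := by
    have z1 : mdot (WithLp.toLp 2 a : Mink) 0 = 0 := (mdL (WithLp.toLp 2 a)).map_zero
    have z2 : mdot (WithLp.toLp 2 b : Mink) 0 = 0 := (mdL (WithLp.toLp 2 b)).map_zero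
    rw [hG, mulE_apply, mulE_apply, scaleS_apply, smul_zero, hκ1, z1, z2]
    ring
  have e8 : mdot (WithLp.toLp 2 b : Mink) 0 = 0 := (mdL (WithLp.toLp 2 b)).map_zero
  simp [e6, e7, e8]

/-! ### The core, given the two algebraic identities -/

theorem core_of (hS : SE a θ S) (hc : Cn a b c) (ha : IsNull a) (hb : IsNull b)
    (hab : GF.mdot a b = 1)
    (hcons : ∀ α β α' β' : 𝓢(ℝ, ℂ), (∀ u, α' u = deriv α u) → (∀ u, β' u = deriv β u) →
      Ph S a b c a α' β + Ph S a b c b α β' + 2 * Tx S a b c α β = 0)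
    (hoa : ∀ f g β : 𝓢(ℝ, ℂ), (∀ u, g u = f (4 * u)) → Ph S a b c a f β = 4 * Ph S a b c a g β)
    (hob : ∀ f g α : 𝓢(ℝ, ℂ), (∀ u, g u = f (4 * u)) → Ph S a b c b α f = 4 * Ph S a b c b α g) :
    θ = 0 := by
  obtain ⟨h, α, ρ, h1, h2, h3, h4, h5⟩ := H846.exists_one
  have hρI : ∀ s, (𝓕 ρ : 𝓢(ℝ, ℂ)) s ≠ 0 → s ∈ Im' := fun s hs => h3 s hs
  set D : 𝓢(ℝ, ℂ) → 𝓢(ℝ, ℂ) := fun f => SchwartzMap.derivCLM ℂ ℂ f with hD
  have hDa : ∀ f u, D f u = deriv f u := fun f u => by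
    rw [hD]; exact SchwartzMap.derivCLM_apply ℂ f u
  -- Fourier support of the derivative
  have hDf : ∀ (f : 𝓢(ℝ, ℂ)) s, (𝓕 (D f) : 𝓢(ℝ, ℂ)) s ≠ 0 → (𝓕 f : 𝓢(ℝ, ℂ)) s ≠ 0 := by
    intro f s hs h0
    apply hs
    have e1 : (D f : ℝ → ℂ) = deriv f := funext (hDa f)
    rw [SchwartzMap.fourier_coe, e1, Real.fourier_deriv f.integrable f.differentiable
      (by rw [← e1]; exact (D f).integrable)]
    rw [SchwartzMap.fourier_coe] at h0
    simp [h0]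
  have hαI : ∀ s, (𝓕 (D α) : 𝓢(ℝ, ℂ)) s ≠ 0 → s ∈ Ip := fun s hs => h2 s (hDf α s hs)
  -- the dilated function
  set g : 𝓢(ℝ, ℂ) := SchwartzMap.compCLMOfContinuousLinearEquiv ℂ
    (ContinuousLinearEquiv.unitsEquivAut ℝ (Units.mk0 (1 / 4 : ℝ) (by norm_num))) h with hg
  have hga : ∀ u, g u = h (u / 4) := by
    intro u
    rw [hg, SchwartzMap.compCLMOfContinuousLinearEquiv_apply, Function.comp_apply]
    congr 1
    simp
    ring
  have hhg : ∀ u, h u = g (4 * u) := by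
    intro u
    rw [hga]
    congr 1
    ring
  set W : 𝓢(ℝ, ℂ) := h + (-(1 / 4) : ℂ) • g with hW
  have hWa : ∀ u, W u = h u + (-(1 / 4) : ℂ) * g u := by
    intro u
    rw [hW, SchwartzMap.add_apply, SchwartzMap.smul_apply, smul_eq_mul]
  have hWb : ∀ u, W u = D α u + 1 * D ρ u := by
    intro u
    rw [hWa, hDa, hDa, hga, one_mul, h1 u]
    ring
  have hzero1 : ∀ s ∈ Ip, ∀ t ∈ Im', s * t < 0 := by
    intro s hs t ht
    have h6 : 0 < s := lt_of_lt_of_le (by norm_num) hs.1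
    have h7 : t < 0 := lt_of_le_of_lt ht.2 (by norm_num)
    exact mul_neg_of_pos_of_neg h6 h7
  have hzero2 : ∀ s ∈ Im', ∀ t ∈ Ip, s * t < 0 := by
    intro s hs t ht
    rw [mul_comm]
    exact hzero1 t ht s hs
  -- first argument
  have p1 : Ph S a b c a W ρ = 0 := by
    rw [Ph_lin hS.toSD hc a _ hWa ρ, hoa g h ρ hhg]
    ring
  have p2 : Ph S a b c a (D ρ) ρ = 0 := by
    have := Ph_lin hS.toSD hc a 1 hWb ρ
    rw [p1, Ph_zero hS hc ha.1 hb.1 hab isCompact_Icc isCompact_Icc hzero1 hαI hρI a, zero_add,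
      one_mul] at this
    exact this.symm
  have p3 : Ph S a b c b ρ W = 0 := by
    rw [Ph_lin' hS.toSD hc b _ hWa ρ, hob g h ρ hhg]
    ring
  have p4 : Ph S a b c b ρ (D ρ) = 0 := by
    have := Ph_lin' hS.toSD hc b 1 hWb ρ
    rw [p3, Ph_zero hS hc ha.1 hb.1 hab isCompact_Icc isCompact_Icc hzero2 hρI hαI b, zero_add,
      one_mul] at this
    exact this.symm
  have p5 := hcons ρ ρ (D ρ) (D ρ) (hDa ρ) (hDa ρ)
  rw [p2, p4, zero_add, zero_add, Tx_val hS hc ha hb hab hρI] at p5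
  have h8 : ρ 0 ≠ 0 := by
    rw [h5]
    exact neg_ne_zero.2 h4
  rcases mul_eq_zero.1 p5 with h | h
  · exact absurd h two_ne_zero
  · rcases mul_eq_zero.1 h with h | h
    · exact h
    · exact absurd h (pow_ne_zero 2 h8)

end Vale.Agent.P352.H121

end
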