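import Vale.Agent.P352.H121.TlH
import Vale.Agent.P352.H148.TlC
import Vale.Agent.P352.H246.TlHom
import Vale.Agent.P352.H993.TlCons

/-!
# The core of the TL criterion: locality implies `θ = 0`
-/

set_option linter.all false

noncomputable section

open MeasureTheory SchwartzMap Complex Filter Topology Set Metric
open scoped SchwartzMap ComplexConjugate ENNReal LineDeriv ContDiff FourierTransform

namespace Vale.Agent.P352.H121

open GF (Ix V Fn Sch ev pd bar sim bas o)
open H246 H496 H246R H993 H148

variable {a : V} {θ : ℂ} {M : Ix → Ix → 𝓢(Mink, ℂ) →L[ℂ] ℂ}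

lemma mdot_neg_neg (p : Mink) : mdot (-p) (-p) = mdot p p := by
  simp only [mdot, PiLp.neg_apply]
  ring

lemma mft_conj (F : 𝓢(Mink, ℂ)) (p : Mink) : mft (conjS F) p = conj (mft F (-p)) := by
  unfold mft
  rw [← integral_conj]
  congr 1
  funext x
  rw [conjS_apply, map_mul, ← exp_conj, map_mul, conj_I, conj_ofReal]
  congr 2
  have : mdot (-p) x = -mdot p x := by
    rw [mdot_comm, mdot_neg_right, mdot_comm]
  rw [this]
  push_cast
  ring

theorem se_of (h : Rm a θ M) (hl : RL M) : SE a θ (SM M) where
  toSD := sd_of h hl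
  lim m n f κ hf hκ h1 := SM_lim m n hf hκ h1
  spec m n F hF := by
    rw [SM_fl, h.spec m n F, h.spec m n (conjS F), map_zero, add_zero]
    · intro p hp
      rw [mftS_apply, mft_conj]
      by_contra h0
      have h1 : mft F (-p) ≠ 0 := fun h2 => h0 (by rw [h2, map_zero])
      have h2 := hF _ h1
      rw [mdot_neg_neg] at h2
      exact absurd hp.2 (not_le.2 h2)
    · intro p hp
      rw [mftS_apply]
      by_contra h0
      exact absurd hp.2 (not_le.2 (hF p h0))
  tra F hF := by
    have h1 : ∀ m n, M m n (conjS F) = 0 := by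
      intro m n
      refine h.spec m n _ fun p hp => ?_
      rw [mftS_apply, mft_conj]
      by_contra h0
      have h2 : mft F (-p) ≠ 0 := fun h2 => h0 (by rw [h2, map_zero])
      have h3 : (-p) ∈ Vp := hF.2 (subset_tsupport _ (by
        rw [Function.mem_support, mftS_apply]; exact h2))
      have h4 : 0 < (-p) 0 + (-p) 1 := h3.1
      have h5 := abs_le_of_mem_fwdCone hp
      have h6 := (abs_le.1 h5).1
      simp only [PiLp.neg_apply] at h4
      linarith
    simp only [SM_fl, h1, map_zero, add_zero]
    exact h.tra F hF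

/-- a second null vector -/
lemma exists_dual {a : V} (ha : IsNull a) : ∃ b : V, IsNull b ∧ GF.mdot a b = 1 := by
  have h0 : 0 < a 0 := ha.2
  have h1 : a 0 * a 0 - a 1 * a 1 - a 2 * a 2 - a 3 * a 3 = 0 := by
    have := ha.1
    rwa [gf_mdot] at this
  refine ⟨fun n => (2 * a 0 ^ 2)⁻¹ * (if n = 0 then a 0 else -a n), ⟨?_, ?_⟩, ?_⟩
  · rw [gf_mdot]
    simp
    linear_combination ((2 * a 0 ^ 2)⁻¹) ^ 2 * h1
  · show 0 < (2 * a 0 ^ 2)⁻¹ * (if (0 : Ix) = 0 then a 0 else -a 0)
    simp only [if_true]
    positivity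
  · rw [gf_mdot]
    simp
    field_simp
    linear_combination (-1 : ℝ) * h1

/-- **the core**: transversal locality of the null response implies that its trace part is zero -/
theorem Rm_zero (ha : IsNull a) (h : Rm a θ M) (hl : RL M) : θ = 0 := by
  obtain ⟨b, hb, hab⟩ := exists_dual ha
  have hS := se_of h hl
  have hc := cn_cone ha hb hab
  exact core_of hS hc ha hb hab
    (fun α β α' β' hα hβ => cons_id hS.toSD hc hα hβ)
    (fun f g β hf => TL.hom_a ha hb hab hS.toSD hc hf)
    (fun f g α hf => TL.hom_b ha hb hab hS.toSD hc hf)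

end Vale.Agent.P352.H121

end
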